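import Crest.Agent.N265.Core
import Crest.Agent.N265.G.Ext
import Crest.Agent.N265.K.Tan
import Crest.Agent.N265.Jac.Jac

-- ▼ part N265/V/Sq
section

/-!
# Row 265, layer V: subquotients of graded modules and their classes (helper94)

`sq M A B` is the graded module `A / (A ⊓ B)` for stable submodules `A`, `B` of `M`;
`cq X M A B` its class in `G X`.
-/

set_option autoImplicit false
noncomputable section
open MvPolynomial

namespace Crest.Agent.N265.V

open GM

theorem exists_decomp (M : GM) (m : M.M) :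
    ∃ c : D →₀ M.M, (∀ d, c d ∈ M.gr d) ∧ c.sum (fun _ x => x) = m := by
  have h := M.diag m
  induction h using AddSubgroup.closure_induction with
  | mem x hx =>
    obtain ⟨d, hd⟩ := hx
    refine ⟨Finsupp.single d x, fun e => ?_, by simp⟩
    by_cases h : d = e
    · subst h; rw [Finsupp.single_eq_same]; exact hd
    · simp [h]
  | zero => exact ⟨0, fun _ => by simp, by simp⟩
  | add x y _ _ hx hy =>
    obtain ⟨c, hc, rfl⟩ := hx
    obtain ⟨c', hc', rfl⟩ := hy
    exact ⟨c + c', fun d => add_mem (hc d) (hc' d),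
      Finsupp.sum_add_index' (fun _ => rfl) (fun _ _ _ => rfl)⟩
  | neg x _ hx =>
    obtain ⟨c, hc, rfl⟩ := hx
    refine ⟨-c, fun d => neg_mem (hc d), ?_⟩
    rw [Finsupp.sum_neg_index (fun _ => rfl)]
    simp [Finsupp.sum]

theorem comp_mem {M : GM} {N : Submodule R M.M} (hN : M.Stab N) (s : Finset D) :
    ∀ c : D → M.M, (∀ d, c d ∈ M.gr d) → ∑ d ∈ s, c d ∈ N → ∀ d ∈ s, c d ∈ N := by
  classical
  induction s using Finset.induction_on with
  | empty => intro c _ _ d hd; simp at hd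
  | insert e s he ih =>
    intro c hc hs
    have h1 : ∑ d ∈ s, (chi d - chi e) • c d ∈ N := by
      have h2 := N.sub_mem (hN _ hs) (N.smul_mem (C (chi e) : R) hs)
      rw [map_sum, Finset.smul_sum, ← Finset.sum_sub_distrib, Finset.sum_insert he,
        mem_gr.1 (hc e), sub_self, zero_add] at h2
      convert h2 using 2 with d _
      rw [mem_gr.1 (hc d), c_smul, map_sub, sub_smul]
    have h3 : ∀ d ∈ s, c d ∈ N := fun d hd => by
      have h4 := ih (fun d => (chi d - chi e) • c d) (fun d => Submodule.smul_mem _ _ (hc d)) h1 d hd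
      have h5 : chi d - chi e ≠ 0 := sub_ne_zero.2 fun h => he (chi_inj h ▸ hd)
      have h6 := N.smul_mem (C (chi d - chi e)⁻¹ : R) h4
      rwa [← c_smul, smul_smul, inv_mul_cancel₀ h5, one_smul] at h6
    intro d hd
    rcases Finset.mem_insert.1 hd with rfl | hd
    · rw [Finset.sum_insert he] at hs
      simpa using N.sub_mem hs (N.sum_mem h3)
    · exact h3 d hd

/-- induction over the homogeneous elements of a stable submodule -/
theorem stab_induction {M : GM} {N : Submodule R M.M} (hN : M.Stab N) {P : M.M → Prop}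
    (h0 : P 0) (hadd : ∀ x ∈ N, ∀ y ∈ N, P x → P y → P (x + y))
    (hh : ∀ d, ∀ x ∈ M.gr d, x ∈ N → P x) : ∀ m ∈ N, P m := by
  intro m hm
  obtain ⟨c, hc, rfl⟩ := exists_decomp M m
  refine (Finset.sum_induction _ (fun x => x ∈ N ∧ P x)
    (fun x y hx hy => ⟨add_mem hx.1 hy.1, hadd x hx.1 y hy.1 hx.2 hy.2⟩) ⟨zero_mem _, h0⟩
    fun d hd => ?_).2
  exact ⟨comp_mem hN _ c hc hm d hd, hh d _ (hc d) (comp_mem hN _ c hc hm d hd)⟩

theorem stab_top (M : GM) : M.Stab ⊤ := fun _ _ => trivial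
theorem stab_bot (M : GM) : M.Stab ⊥ := fun m hm => by
  rw [Submodule.mem_bot] at *; rw [hm, map_zero]
theorem stab_sup {M : GM} {A B : Submodule R M.M} (hA : M.Stab A) (hB : M.Stab B) :
    M.Stab (A ⊔ B) := fun m hm => by
  obtain ⟨a, ha, b, hb, rfl⟩ := Submodule.mem_sup.1 hm
  rw [map_add]
  exact Submodule.add_mem_sup (hA a ha) (hB b hb)
theorem stab_inf {M : GM} {A B : Submodule R M.M} (hA : M.Stab A) (hB : M.Stab B) :
    M.Stab (A ⊓ B) := fun m hm => ⟨hA m hm.1, hB m hm.2⟩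
theorem stab_map {M N : GM} {f : M.M →ₗ[R] N.M} (hf : Deg0 f) {A : Submodule R M.M}
    (hA : M.Stab A) : N.Stab (A.map f) := by
  rintro _ ⟨a, ha, rfl⟩
  exact ⟨_, hA a ha, hf a⟩
theorem stab_comap {M N : GM} {f : M.M →ₗ[R] N.M} (hf : Deg0 f) {A : Submodule R N.M}
    (hA : N.Stab A) : M.Stab (A.comap f) := fun m hm => by
  rw [Submodule.mem_comap, hf m]; exact hA _ hm
theorem stab_smul {M : GM} {I : Ideal R} (hI : ∀ r ∈ I, gam r ∈ I) {A : Submodule R M.M}
    (hA : M.Stab A) : M.Stab (I • A) := fun m hm => by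
  refine Submodule.smul_induction_on hm (fun r hr a ha => ?_) (fun x y hx hy => ?_)
  · rw [LinearMap.map_smulₛₗ]; exact Submodule.smul_mem_smul (hI r hr) (hA a ha)
  · rw [map_add]; exact add_mem hx hy

theorem gam_pow {I : Ideal R} (hI : ∀ r ∈ I, gam r ∈ I) (k : ℕ) : ∀ r ∈ I ^ k, gam r ∈ I ^ k := by
  intro r hr
  have h : (I ^ k).map gam ≤ I ^ k := by
    rw [Ideal.map_pow]
    exact Ideal.pow_right_mono (Ideal.map_le_iff_le_comap.2 hI) k
  exact h (Ideal.mem_map_of_mem _ hr)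

theorem gam_span {ι : Type} {s : ι → R} {d : ι → D} (hs : ∀ i, Hmg (d i) (s i)) :
    ∀ r ∈ Ideal.span (Set.range s), gam r ∈ Ideal.span (Set.range s) := by
  intro r hr
  have h : (Ideal.span (Set.range s)).map gam ≤ Ideal.span (Set.range s) := by
    rw [Ideal.map_span, Ideal.span_le]
    rintro _ ⟨_, ⟨i, rfl⟩, rfl⟩
    rw [hs i]
    exact Ideal.mul_mem_left _ _ (Ideal.subset_span ⟨i, rfl⟩)
  exact h (Ideal.mem_map_of_mem _ hr)


/-- the subquotient `A / (A ⊓ B)` -/
def sq (M : GM) (A B : Submodule R M.M) (hA : M.Stab A) (hB : M.Stab B) : GM where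
  M := A ⧸ B.submoduleOf A
  fin := by
    obtain ⟨V, hV⟩ := M.fin
    refine ⟨V, fun v hv m => ?_⟩
    induction m using Submodule.Quotient.induction_on with
    | H a =>
      rw [← Submodule.Quotient.mk_smul]
      have : (X v : R) • a = 0 := Subtype.ext (hV v hv a)
      rw [this, Submodule.Quotient.mk_zero]
  g := Submodule.mapQ _ _ (M.g.restrict hA) fun a ha => hB _ ha
  diag := fun m => by
    induction m using Submodule.Quotient.induction_on with
    | H a =>
      obtain ⟨a, ha⟩ := a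
      refine stab_induction hA (P := fun a => ∀ ha : a ∈ A, Submodule.Quotient.mk (⟨a, ha⟩ : A) ∈ _)
        (fun _ => zero_mem _) ?_ ?_ a ha ha
      · intro x hx y hy h1 h2 _
        exact add_mem (h1 hx) (h2 hy)
      · intro d x hx _ hxA
        refine AddSubgroup.subset_closure ⟨d, ?_⟩
        exact congrArg (Submodule.Quotient.mk (p := B.submoduleOf A))
          (Subtype.ext hx : (⟨M.g x, hA x hxA⟩ : A) = (C (chi d) : R) • ⟨x, hxA⟩)

section sq
variable {M : GM} {A B : Submodule R M.M} {hA : M.Stab A} {hB : M.Stab B}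

/-- the class of `a ∈ A` in `A / B` -/
def mkq (hA : M.Stab A) (hB : M.Stab B) : A →ₗ[R] (sq M A B hA hB).M := (B.submoduleOf A).mkQ

theorem mkq_surj : Function.Surjective (mkq hA hB) := Submodule.mkQ_surjective _
theorem mkq_eq_zero {a : A} : mkq hA hB a = 0 ↔ (a : M.M) ∈ B := Submodule.Quotient.mk_eq_zero _
theorem mkq_eq {a b : A} : mkq hA hB a = mkq hA hB b ↔ (a : M.M) - b ∈ B := by
  rw [← sub_eq_zero, ← map_sub, mkq_eq_zero]; rfl
theorem g_mkq (a : A) : (sq M A B hA hB).g (mkq hA hB a) = mkq hA hB ⟨M.g a, hA _ a.2⟩ := rfl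

/-- maps between subquotients induced by a linear map -/
def sqMap {N : GM} {A' B' : Submodule R N.M} (hA : M.Stab A) (hB : M.Stab B) (hA' : N.Stab A')
    (hB' : N.Stab B') (f : M.M →ₗ[R] N.M) (h1 : ∀ a ∈ A, f a ∈ A') (h2 : ∀ a ∈ A, a ∈ B → f a ∈ B') :
    (sq M A B hA hB).M →ₗ[R] (sq N A' B' hA' hB').M :=
  Submodule.mapQ _ _ (f.restrict h1) fun a ha => h2 _ a.2 ha

theorem sqMap_mkq {N : GM} {A' B' : Submodule R N.M} {hA' : N.Stab A'} {hB' : N.Stab B'}
    (f : M.M →ₗ[R] N.M) (h1 : ∀ a ∈ A, f a ∈ A') (h2 : ∀ a ∈ A, a ∈ B → f a ∈ B') (a : A) :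
    sqMap hA hB hA' hB' f h1 h2 (mkq hA hB a) = mkq hA' hB' ⟨f a, h1 _ a.2⟩ := rfl

theorem sqMap_deg0 {N : GM} {A' B' : Submodule R N.M} {hA' : N.Stab A'} {hB' : N.Stab B'}
    {f : M.M →ₗ[R] N.M} (hf : Deg0 f) (h1 : ∀ a ∈ A, f a ∈ A')
    (h2 : ∀ a ∈ A, a ∈ B → f a ∈ B') : Deg0 (sqMap hA hB hA' hB' f h1 h2) := by
  intro m
  obtain ⟨a, rfl⟩ := mkq_surj (hA := hA) (hB := hB) m
  rw [g_mkq, sqMap_mkq, sqMap_mkq, g_mkq]
  congr 1
  exact Subtype.ext (hf a)

theorem degIn_of_surj {N P : GM} {f : N.M →ₗ[R] P.M} (hf : Deg0 f) (hs : Function.Surjective f)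
    {S : Finset ℕ} (h : N.DegIn S) : P.DegIn S := by
  intro d hd
  rw [eq_bot_iff]
  intro m hm
  obtain ⟨n, rfl⟩ := hs m
  obtain ⟨c, hc, rfl⟩ := exists_decomp N n
  classical
  have h1 : ∀ e, f (c e) ∈ P.gr e := fun e => by
    rw [mem_gr, ← hf, mem_gr.1 (hc e), map_smul]
  have hcd : c d = 0 := by
    have := hc d
    rwa [h d hd, Submodule.mem_bot] at this
  have h3 : ∑ e ∈ insert d c.support, (f (c e) - if e = d then f (c.sum fun _ x => x) else 0) ∈
      (⊥ : Submodule R P.M) := by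
    have hd' : d ∉ c.support := by simp [hcd]
    rw [Finset.sum_sub_distrib, Finset.sum_ite_eq', if_pos (Finset.mem_insert_self _ _),
      Finset.sum_insert hd', hcd, map_zero, zero_add, Finsupp.sum, map_sum, sub_self]
    exact zero_mem _
  have h4 := comp_mem (stab_bot P) _ _ (fun e => ?_) h3 d (Finset.mem_insert_self _ _)
  · simpa [hcd] using h4
  · split_ifs with he
    · subst he; exact sub_mem (h1 _) hm
    · simpa using h1 e

theorem degIn_of_inj {N P : GM} {f : N.M →ₗ[R] P.M} (hf : Deg0 f) (hs : Function.Injective f)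
    {S : Finset ℕ} (h : P.DegIn S) : N.DegIn S := by
  intro d hd
  rw [eq_bot_iff]
  intro m hm
  have h1 : f m ∈ P.gr d := by rw [mem_gr, ← hf, mem_gr.1 hm, map_smul]
  rw [h d hd, Submodule.mem_bot] at h1
  exact (Submodule.mem_bot _).2 (hs (h1.trans (map_zero f).symm))

theorem degIn_sq {S : Finset ℕ} (h : M.DegIn S) : (sq M A B hA hB).DegIn S := by
  have h1 : (sq M A ⊥ hA (stab_bot M)).DegIn S := by
    let f : (sq M A ⊥ hA (stab_bot M)).M →ₗ[R] M.M :=
      Submodule.liftQ _ A.subtype fun a ha => ha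
    refine degIn_of_inj (f := f) (fun m => ?_) ?_ h
    · obtain ⟨a, rfl⟩ := mkq_surj (hA := hA) (hB := stab_bot M) m
      rfl
    · rw [injective_iff_map_eq_zero]
      intro m hm
      obtain ⟨a, rfl⟩ := mkq_surj (hA := hA) (hB := stab_bot M) m
      exact mkq_eq_zero.2 hm
  refine degIn_of_surj (f := sqMap hA (stab_bot M) hA hB LinearMap.id (fun _ h => h)
    fun a _ ha => ?_) (sqMap_deg0 (fun _ => rfl) _ _) (fun m => ?_) h1
  · rw [Submodule.mem_bot] at ha
    rw [ha]; exact zero_mem _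
  · obtain ⟨a, rfl⟩ := mkq_surj (hA := hA) (hB := hB) m
    exact ⟨mkq _ _ a, rfl⟩

theorem kill_sq {x : Pt} : (sq M A B hA hB).Kill x ↔ ∃ r : R, eval x r ≠ 0 ∧ ∀ a ∈ A, r • a ∈ B := by
  refine exists_congr fun r => and_congr_right fun _ => ⟨fun h a ha => ?_, fun h m => ?_⟩
  · have := h (mkq hA hB ⟨a, ha⟩)
    rwa [← map_smul, mkq_eq_zero] at this
  · obtain ⟨a, rfl⟩ := mkq_surj (hA := hA) (hB := hB) m
    rw [← map_smul, mkq_eq_zero]
    exact h a a.2
end sq

/-- `A / B` is supported on `X` -/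
def Sup (X : Spc) (M : GM) (A B : Submodule R M.M) : Prop :=
  ∀ x, Rel X.B x → x ∉ X.pts → ∃ r : R, eval x r ≠ 0 ∧ ∀ a ∈ A, r • a ∈ B

theorem Sup.mono {X : Spc} {M : GM} {A B A' B' : Submodule R M.M} (h : Sup X M A B) (hA : A' ≤ A)
    (hB : B ≤ B') : Sup X M A' B' := fun x h1 h2 => by
  obtain ⟨r, hr, h3⟩ := h x h1 h2
  exact ⟨r, hr, fun a ha => hB (h3 a (hA ha))⟩

theorem sup_of_on {X : Spc} {M : GM} (h : M.On X) (A B : Submodule R M.M) : Sup X M A B :=
  fun x h1 h2 => by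
    obtain ⟨r, hr, h3⟩ := h.supp x h1 h2
    exact ⟨r, hr, fun a _ => by rw [h3]; exact zero_mem _⟩

theorem on_sq {X : Spc} {M : GM} {A B : Submodule R M.M} {hA : M.Stab A} {hB : M.Stab B}
    (hd : M.DegIn X.B) (h : Sup X M A B) : (sq M A B hA hB).On X :=
  ⟨degIn_sq hd, fun x h1 h2 => kill_sq.2 (h x h1 h2)⟩

/-! ### classes -/

theorem cl_pos {X : Spc} {A : GM} (hA : A.On X) : cl X A =
    (QuotientAddGroup.mk (FreeAbelianGroup.of ⟨A, hA⟩) : _ ⧸ AddSubgroup.closure (GRel X)) :=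
  dif_pos hA
theorem cl_neg {X : Spc} {A : GM} (hA : ¬ A.On X) : cl X A = 0 := dif_neg hA

theorem cl_ses {X : Spc} {A B C : GM} (hA : A.On X) (hB : B.On X) (hC : C.On X)
    (h : GM.SES A B C) : cl X B = cl X A + cl X C := by
  rw [cl_pos hA, cl_pos hB, cl_pos hC]
  have : (QuotientAddGroup.mk (FreeAbelianGroup.of ⟨B, hB⟩ - FreeAbelianGroup.of ⟨A, hA⟩
      - FreeAbelianGroup.of ⟨C, hC⟩) : _ ⧸ AddSubgroup.closure (GRel X)) = 0 :=
    (QuotientAddGroup.eq_zero_iff _).2
      (AddSubgroup.subset_closure (Or.inl ⟨⟨A, hA⟩, ⟨B, hB⟩, ⟨C, hC⟩, h, rfl⟩))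
  rw [QuotientAddGroup.mk_sub, QuotientAddGroup.mk_sub, sub_sub, sub_eq_zero] at this
  exact this

theorem cl_irr {X : Spc} {A : GM} (h : A.Irr X) : cl X A = 0 := by
  by_cases hA : A.On X
  · rw [cl_pos hA]
    exact (QuotientAddGroup.eq_zero_iff (N := AddSubgroup.closure (GRel X)) _).2
      (AddSubgroup.subset_closure (Or.inr ⟨⟨A, hA⟩, h, rfl⟩))
  · exact cl_neg hA

open Classical in
/-- the class of `A / B` -/
def cq (X : Spc) (M : GM) (A B : Submodule R M.M) : G X :=
  if h : M.Stab A ∧ M.Stab B then cl X (sq M A B h.1 h.2) else 0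

theorem cq_eq {X : Spc} {M : GM} {A B : Submodule R M.M} (hA : M.Stab A) (hB : M.Stab B) :
    cq X M A B = cl X (sq M A B hA hB) := dif_pos ⟨hA, hB⟩

theorem cq_irr {X : Spc} {M : GM} {A B : Submodule R M.M}
    (h : ∀ x ∈ X.pts, ∃ r : R, eval x r ≠ 0 ∧ ∀ a ∈ A, r • a ∈ B) : cq X M A B = 0 := by
  unfold cq
  split_ifs with h'
  · exact cl_irr fun x hx => kill_sq.2 (h x hx)
  · rfl

theorem cq_of_le {X : Spc} {M : GM} {A B : Submodule R M.M} (h : A ≤ B) : cq X M A B = 0 :=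
  cq_irr fun _ _ => ⟨1, by simp, fun a ha => by simpa using h ha⟩

theorem cq_add {X : Spc} {M : GM} {A B C : Submodule R M.M} (hA : M.Stab A) (hB : M.Stab B)
    (hC : M.Stab C) (hBA : B ≤ A) (hCB : C ≤ B) (hd : M.DegIn X.B) (h : Sup X M A C) :
    cq X M A C = cq X M B C + cq X M A B := by
  rw [cq_eq hA hC, cq_eq hB hC, cq_eq hA hB]
  refine cl_ses (on_sq hd (h.mono hBA le_rfl)) (on_sq hd h) (on_sq hd (h.mono le_rfl hCB))
    ⟨sqMap hB hC hA hC LinearMap.id (fun _ h => hBA h) fun _ _ h => h,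
     sqMap hA hC hA hB LinearMap.id (fun _ h => h) fun _ _ h => hCB h,
     sqMap_deg0 (fun _ => rfl) _ _, sqMap_deg0 (fun _ => rfl) _ _, ?_, ?_, ?_⟩
  · rw [injective_iff_map_eq_zero]
    intro m hm
    obtain ⟨a, rfl⟩ := mkq_surj (hA := hB) (hB := hC) m
    rw [sqMap_mkq, mkq_eq_zero] at hm
    exact mkq_eq_zero.2 hm
  · intro m
    obtain ⟨a, rfl⟩ := mkq_surj (hA := hA) (hB := hC) m
    rw [sqMap_mkq, mkq_eq_zero]
    constructor
    · intro h1
      exact ⟨mkq hB hC ⟨a, h1⟩, rfl⟩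
    · rintro ⟨m, hm⟩
      obtain ⟨b, rfl⟩ := mkq_surj (hA := hB) (hB := hC) m
      rw [sqMap_mkq, mkq_eq] at hm
      have := B.sub_mem b.2 (hCB hm)
      simpa using this
  · intro m
    obtain ⟨a, rfl⟩ := mkq_surj (hA := hA) (hB := hB) m
    exact ⟨mkq hA hC a, rfl⟩

theorem on_of_locSurj {X : Spc} {A B : GM} (hA : A.On X) (f : A.M →ₗ[R] B.M) (hd : B.DegIn X.B)
    (hs : Function.Surjective f) : B.On X :=
  ⟨hd, fun x h1 h2 => by
    obtain ⟨r, hr, h3⟩ := hA.supp x h1 h2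
    refine ⟨r, hr, fun b => ?_⟩
    obtain ⟨a, rfl⟩ := hs b
    rw [← map_smul, h3, map_zero]⟩

/-- bijective maps of degree zero preserve the class -/
theorem cl_bij {X : Spc} {A B : GM} (f : A.M →ₗ[R] B.M) (hf : Deg0 f)
    (hb : Function.Bijective f) : cl X A = cl X B := by
  by_cases hA : A.On X
  · have hB : B.On X := on_of_locSurj hA f (degIn_of_surj hf hb.2 hA.deg) hb.2
    have h0 : (sq B ⊤ ⊤ (stab_top B) (stab_top B)).Irr X := fun x _ =>
      kill_sq.2 ⟨1, by simp, fun _ _ => trivial⟩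
    have := cl_ses hA hB (on_sq hB.deg (sup_of_on hB ⊤ ⊤)) (C := sq B ⊤ ⊤ (stab_top B) (stab_top B))
      ⟨f, 0, hf, fun _ => by simp, hb.1, fun m => by simpa using hb.2 m, fun m => by
        obtain ⟨a, rfl⟩ := mkq_surj (hA := stab_top B) (hB := stab_top B) m
        exact ⟨0, (mkq_eq_zero.2 Submodule.mem_top).symm⟩⟩
    rw [this, cl_irr h0, add_zero]
  · have hB : ¬ B.On X := fun hB => hA ⟨degIn_of_inj hf hb.1 hB.deg, fun x h1 h2 => by
      obtain ⟨r, hr, h3⟩ := hB.supp x h1 h2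
      exact ⟨r, hr, fun a => hb.1 (by rw [map_smul, h3, map_zero])⟩⟩
    rw [cl_neg hA, cl_neg hB]

theorem cq_top_bot (X : Spc) (M : GM) : cq X M ⊤ ⊥ = cl X M := by
  rw [cq_eq (stab_top M) (stab_bot M)]
  refine (cl_bij (mkq (stab_top M) (stab_bot M) ∘ₗ (Submodule.topEquiv.symm.toLinearMap))
    (fun _ => rfl) ⟨?_, fun m => ?_⟩).symm
  · rw [injective_iff_map_eq_zero]
    intro m hm
    exact mkq_eq_zero.1 hm
  · obtain ⟨a, rfl⟩ := mkq_surj (hA := stab_top M) (hB := stab_bot M) m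
    exact ⟨a, rfl⟩

/-- transport of subquotients along a map of degree zero -/
theorem cq_map {X : Spc} {M N : GM} {f : M.M →ₗ[R] N.M} (hf : Deg0 f) {A B : Submodule R M.M}
    {A' B' : Submodule R N.M} (hA : M.Stab A) (hB : M.Stab B) (hA' : N.Stab A') (hB' : N.Stab B')
    (h1 : ∀ a ∈ A, f a ∈ A') (h2 : ∀ a ∈ A, a ∈ B ↔ f a ∈ B')
    (h3 : ∀ a' ∈ A', ∃ a ∈ A, f a - a' ∈ B') : cq X M A B = cq X N A' B' := by
  rw [cq_eq hA hB, cq_eq hA' hB']
  refine cl_bij (sqMap hA hB hA' hB' f h1 fun a ha => (h2 a ha).1) (sqMap_deg0 hf _ _) ⟨?_, ?_⟩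
  · rw [injective_iff_map_eq_zero]
    intro m hm
    obtain ⟨a, rfl⟩ := mkq_surj (hA := hA) (hB := hB) m
    rw [sqMap_mkq, mkq_eq_zero] at hm
    exact mkq_eq_zero.2 ((h2 a a.2).2 hm)
  · intro m
    obtain ⟨a', rfl⟩ := mkq_surj (hA := hA') (hB := hB') m
    obtain ⟨a, ha, h4⟩ := h3 a' a'.2
    exact ⟨mkq hA hB ⟨a, ha⟩, by rw [sqMap_mkq, mkq_eq]; exact h4⟩

/-- a map of degree zero that is bijective near every point of `X` preserves the class -/
theorem cl_loc {X : Spc} {A B : GM} (hA : A.On X) (hB : B.On X) (f : A.M →ₗ[R] B.M) (hf : Deg0 f)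
    (h : ∀ x ∈ X.pts, ∃ r : R, eval x r ≠ 0 ∧ (∀ a, f a = 0 → r • a = 0) ∧
      ∀ b, ∃ a, f a = r • b) : cl X A = cl X B := by
  have hk : A.Stab (LinearMap.ker f) := stab_comap hf (stab_bot B)
  have hr : B.Stab (LinearMap.range f) := by
    rw [LinearMap.range_eq_map]; exact stab_map hf (stab_top A)
  rw [← cq_top_bot X A, ← cq_top_bot X B,
    cq_add (stab_top A) hk (stab_bot A) le_top bot_le hA.deg (sup_of_on hA _ _),
    cq_add (stab_top B) hr (stab_bot B) le_top bot_le hB.deg (sup_of_on hB _ _),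
    cq_irr (A := LinearMap.ker f), cq_irr (A := ⊤) (B := LinearMap.range f), zero_add, add_zero]
  · exact cq_map hf (stab_top A) hk hr (stab_bot B) (fun a _ => ⟨a, rfl⟩) (fun _ _ => Iff.rfl)
      (by rintro _ ⟨a, rfl⟩; exact ⟨a, trivial, by simp⟩)
  · intro x hx
    obtain ⟨r, h1, _, h3⟩ := h x hx
    exact ⟨r, h1, fun b _ => h3 b⟩
  · intro x hx
    obtain ⟨r, h1, h2, _⟩ := h x hx
    exact ⟨r, h1, fun a ha => h2 a ha⟩

end Crest.Agent.N265.V
end
end

-- ▼ part N265/V/Ev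
section

/-! # Row 265, layer V, task V1: value at `s = 1` of `p(s) · ∑ a_k s^k` when it is a polynomial -/

set_option autoImplicit false
noncomputable section
open Polynomial

namespace Crest.Agent.N265.V
open Ext
variable {Λ : Type*} [CommRing Λ] {A : Type*} [AddCommGroup A] [Module Λ A]

/-- extension by zero to negative indices -/
def zs (a : ℕ → A) : ℤ → A := fun k => if 0 ≤ k then a k.toNat else 0
/-- `p(s) · ∑ a_k s^k` is a Laurent polynomial -/
def Tame (p : Λ[X]) (a : ℤ → A) : Prop := (Function.support (app p a)).Finite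
/-- its value at `s = 1` -/
def ev (p : Λ[X]) (a : ℤ → A) : A := ∑ᶠ k, app p a k

variable {p q : Λ[X]} {a b : ℤ → A}
lemma zs_natCast (a : ℕ → A) (k : ℕ) : zs a k = a k := by simp [zs]
lemma zs_neg (a : ℕ → A) {k : ℤ} (hk : k < 0) : zs a k = 0 := if_neg (not_le.2 hk)
lemma zs_add (a b : ℕ → A) : zs (a + b) = zs a + zs b := by
  funext k; simp only [zs, Pi.add_apply]; split_ifs <;> simp
lemma zs_sub (a b : ℕ → A) : zs (a - b) = zs a - zs b := by
  funext k; simp only [zs, Pi.sub_apply]; split_ifs <;> simp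
lemma zs_zero : zs (0 : ℕ → A) = 0 := by
  funext k; simp [zs]
lemma zs_smul (c : Λ) (a : ℕ → A) : zs (fun k => c • a k) = c • zs a := by
  funext k; simp only [zs, Pi.smul_apply]; split_ifs <;> simp
lemma zs_map {A' : Type*} [AddCommGroup A'] (f : A' →+ A) (a : ℕ → A') :
    zs (fun k => f (a k)) = fun k => f (zs a k) := by
  funext k; simp only [zs]; split_ifs <;> simp
lemma app_seq_zero (p : Λ[X]) : app p (0 : ℤ → A) = 0 := by
  funext k; simp [app, Polynomial.sum]
lemma app_seq_sub' (p : Λ[X]) (a b : ℤ → A) : app p (a - b) = app p a - app p b :=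
  funext fun k => app_seq_sub p a b k
lemma app_seq_smul (p : Λ[X]) (c : Λ) (a : ℤ → A) : app p (c • a) = c • app p a := by
  funext k
  simp only [app, Polynomial.sum, Pi.smul_apply, Finset.smul_sum, smul_comm c]
lemma ev_zero : ev p (0 : ℤ → A) = 0 := by
  rw [ev, app_seq_zero]; simp
lemma Tame.add (ha : Tame p a) (hb : Tame p b) : Tame p (a + b) := by
  rw [Tame, app_seq_add]
  exact (Set.Finite.union ha hb).subset (Function.support_add _ _)
lemma Tame.sub (ha : Tame p a) (hb : Tame p b) : Tame p (a - b) := by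
  rw [Tame, app_seq_sub']
  exact (Set.Finite.union ha hb).subset (Function.support_sub _ _)
lemma ev_add (ha : Tame p a) (hb : Tame p b) : ev p (a + b) = ev p a + ev p b := by
  rw [ev, app_seq_add]
  exact finsum_add_distrib ha hb
lemma ev_sub (ha : Tame p a) (hb : Tame p b) : ev p (a - b) = ev p a - ev p b := by
  rw [ev, app_seq_sub']
  exact finsum_sub_distrib ha hb
lemma Tame.smul (ha : Tame p a) (c : Λ) : Tame p (c • a) := by
  rw [Tame, app_seq_smul]
  exact Set.Finite.subset ha fun k hk h => hk (by rw [Pi.smul_apply, h, smul_zero])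
lemma ev_smul (ha : Tame p a) (c : Λ) : ev p (c • a) = c • ev p a := by
  rw [ev, app_seq_smul]
  exact (smul_finsum' c ha).symm
lemma finite_shift (ha : (Function.support a).Finite) (i : ℤ) :
    (Function.support fun k => a (k - i)).Finite :=
  ha.preimage (f := fun k => k - i) sub_left_injective.injOn
lemma tame_monomial (ha : (Function.support a).Finite) (i : ℕ) (c : Λ) :
    Tame (monomial i c) a :=
  (finite_shift ha i).subset fun k hk h => hk (by
    rw [app_monomial, show a (k - i) = 0 from h, smul_zero])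
lemma tame_of_finite (ha : (Function.support a).Finite) : Tame p a := by
  induction p using Polynomial.induction_on' with
  | add p q hp hq =>
    rw [Tame, show app (p + q) a = app p a + app q a from funext (app_add p q a)]
    exact (Set.Finite.union hp hq).subset (Function.support_add _ _)
  | monomial i c => exact tame_monomial ha i c
lemma ev_of_finite (ha : (Function.support a).Finite) : ev p a = p.eval 1 • ∑ᶠ k, a k := by
  induction p using Polynomial.induction_on' with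
  | add p q hp hq =>
    rw [eval_add, add_smul, ← hp, ← hq, ev]
    simp only [app_add]
    exact finsum_add_distrib (tame_of_finite ha) (tame_of_finite ha)
  | monomial i c =>
    rw [ev, eval_monomial, one_pow, mul_one]
    simp only [app_monomial]
    rw [← smul_finsum' c (finite_shift ha i)]
    congr 1
    exact finsum_comp_equiv (Equiv.subRight (i : ℤ))
lemma Tame.mul (ha : Tame q a) (p : Λ[X]) : Tame (p * q) a := by
  rw [Tame, app_mul]; exact tame_of_finite ha
lemma ev_mul (ha : Tame q a) (p : Λ[X]) : ev (p * q) a = p.eval 1 • ev q a := by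
  rw [ev, app_mul]; exact ev_of_finite ha
lemma app_zs_neg (p : Λ[X]) (a : ℕ → A) {k : ℤ} (hk : k < 0) : app p (zs a) k = 0 :=
  Finset.sum_eq_zero fun i _ => by
    beta_reduce; rw [zs_neg a (by omega), smul_zero]
lemma tame_zs {a : ℕ → A} {k₀ : ℤ} (h : ∀ k, k₀ ≤ k → app p (zs a) k = 0) : Tame p (zs a) :=
  (Set.finite_Ico 0 k₀).subset fun k hk =>
    ⟨not_lt.1 fun h1 => hk (app_zs_neg p a h1), not_le.1 fun h1 => hk (h k h1)⟩
lemma zs_succ (a : ℕ → A) :
    zs (fun k => a (k + 1)) = (fun k => zs a (k + 1)) - Pi.single (-1) (a 0) := by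
  funext k
  rw [Pi.sub_apply]
  rcases lt_trichotomy k (-1) with h | rfl | h
  · rw [zs_neg _ (by omega), zs_neg _ (by omega), Pi.single_eq_of_ne h.ne, sub_zero]
  · simp [zs]
  · obtain ⟨m, rfl⟩ := Int.eq_ofNat_of_zero_le (show 0 ≤ k by omega)
    rw [Pi.single_eq_of_ne h.ne', sub_zero, zs_natCast, ← zs_natCast a (m + 1), Nat.cast_succ]
lemma app_shift (p : Λ[X]) (a : ℤ → A) :
    app p (fun k => a (k + 1)) = fun k => app p a (k + 1) := by
  funext k
  simp only [app, add_sub_right_comm]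
lemma finite_single (i : ℤ) (x : A) : (Function.support (Pi.single i x : ℤ → A)).Finite :=
  (Set.finite_singleton i).subset Pi.support_single_subset
lemma Tame.shift (ha : Tame p a) : Tame p fun k => a (k + 1) := by
  rw [Tame, app_shift]
  simpa only [sub_neg_eq_add] using finite_shift ha (-1)
/-- shifting the sequence -/
lemma Tame.succ {a : ℕ → A} (ha : Tame p (zs a)) : Tame p (zs fun k => a (k + 1)) := by
  rw [zs_succ]
  exact ha.shift.sub (tame_of_finite (finite_single _ _))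
lemma ev_succ {a : ℕ → A} (ha : Tame p (zs a)) :
    ev p (zs fun k => a (k + 1)) = ev p (zs a) - p.eval 1 • a 0 := by
  rw [zs_succ, ev_sub ha.shift (tame_of_finite (finite_single _ _)),
    ev_of_finite (finite_single _ _), finsum_eq_single _ (-1) fun _ h => Pi.single_eq_of_ne h _,
    Pi.single_eq_same, ev, app_shift]
  congr 1
  exact finsum_comp_equiv (Equiv.addRight (1 : ℤ))
/-- telescoping sequences -/
lemma ev_tele {a : ℕ → A} (ha : Tame p (zs a)) :
    Tame p (zs fun k => a k - a (k + 1)) ∧ ev p (zs fun k => a k - a (k + 1)) = p.eval 1 • a 0 := by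
  have h : (zs fun k => a k - a (k + 1)) = zs a - zs fun k => a (k + 1) := zs_sub _ _
  rw [h, ev_sub ha ha.succ, ev_succ ha, sub_sub_cancel]
  exact ⟨ha.sub ha.succ, rfl⟩

section semi
variable {Λ' : Type*} [CommRing Λ'] {A' : Type*} [AddCommGroup A'] [Module Λ' A']
/-- maps with a projection formula -/
lemma app_push (π : Λ →+* Λ') (f : A' →+ A) (hf : ∀ c x, f (π c • x) = c • f x) (p : Λ[X])
    (a : ℤ → A') (k : ℤ) : f (app (p.map π) a k) = app p (fun j => f (a j)) k := by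
  rw [app_eq_sum _ (natDegree_map_le (f := π) (p := p)), app_eq_sum p le_rfl, map_sum]
  simp only [coeff_map, hf]
lemma Tame.push (π : Λ →+* Λ') (f : A' →+ A) (hf : ∀ c x, f (π c • x) = c • f x) {p : Λ[X]}
    {a : ℤ → A'} (ha : Tame (p.map π) a) :
    Tame p (fun j => f (a j)) ∧ f (ev (p.map π) a) = ev p fun j => f (a j) := by
  have h : app p (fun j => f (a j)) = fun k => f (app (p.map π) a k) :=
    funext fun k => (app_push π f hf p a k).symm
  rw [Tame, ev, ev, h]
  exact ⟨Set.Finite.subset ha fun k hk h0 => hk (by simp only [h0, map_zero]), f.map_finsum ha⟩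
/-- geometric sequences -/
lemma app_geom (π : Λ →+* Λ') (f : A' →+ A) (hf : ∀ c x, f (π c • x) = c • f x) (p : Λ[X])
    (ξ ℓ : Λ') (h : ξ * ℓ = 1) (c : A') {a : ℤ → A} {k₀ : ℕ}
    (ha : ∀ k : ℕ, k₀ ≤ k → a k = f (ξ ^ k • c)) {k : ℕ} (hk : k₀ + p.natDegree ≤ k) :
    app p a k = f ((ξ ^ k * p.eval₂ π ℓ) • c) := by
  rw [app_eq_sum p le_rfl, eval₂_eq_sum_range, Finset.mul_sum, Finset.sum_smul, map_sum]
  refine Finset.sum_congr rfl fun i hi => ?_
  have hi' := Finset.mem_range.1 hi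
  obtain ⟨m, rfl⟩ : ∃ m, k = m + i := ⟨k - i, by omega⟩
  rw [Nat.cast_add, add_sub_cancel_right, ha m (by omega), ← hf, smul_smul]
  congr 2
  have : ξ ^ i * ℓ ^ i = 1 := by rw [← mul_pow, h, one_pow]
  linear_combination (-(π (p.coeff i)) * ξ ^ m) * this
end semi

/-- the inverse power series -/
lemma ev_inv {S : PowerSeries Λ} (h : (p : PowerSeries Λ) * S = 1) (c : A) :
    Tame p (zs fun k => PowerSeries.coeff k S • c) ∧
      ev p (zs fun k => PowerSeries.coeff k S • c) = c := by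
  have key : app p (zs fun k => PowerSeries.coeff k S • c) = Pi.single 0 c := by
    funext k
    rcases lt_or_ge k 0 with hk | hk
    · rw [app_zs_neg p _ hk, Pi.single_eq_of_ne hk.ne]
    obtain ⟨m, rfl⟩ := Int.eq_ofNat_of_zero_le hk
    have h1 := congrArg (PowerSeries.coeff m) h
    rw [PowerSeries.coeff_mul, Finset.Nat.sum_antidiagonal_eq_sum_range_succ
      (fun i j => PowerSeries.coeff i (p : PowerSeries Λ) * PowerSeries.coeff j S)] at h1
    rw [app_eq_sum p (Nat.le_add_left p.natDegree m), ← Finset.sum_subset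
      (Finset.range_subset_range.2 (show m + 1 ≤ m + p.natDegree + 1 by omega)) fun i _ hi => by
        rw [zs_neg _ (by rw [Finset.mem_range] at hi; omega), smul_zero]]
    have h2 : ∀ i ∈ Finset.range (m + 1),
        p.coeff i • zs (fun k => PowerSeries.coeff k S • c) ((m : ℤ) - i) =
          (PowerSeries.coeff i (p : PowerSeries Λ) * PowerSeries.coeff (m - i) S) • c := by
      intro i hi
      rw [← Nat.cast_sub (Nat.lt_succ_iff.1 (Finset.mem_range.1 hi)), zs_natCast, smul_smul,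
        Polynomial.coeff_coe]
    rw [Finset.sum_congr rfl h2, ← Finset.sum_smul, h1, PowerSeries.coeff_one]
    split_ifs with h0
    · subst h0; simp
    · rw [zero_smul, Pi.single_eq_of_ne (by exact_mod_cast h0)]
  rw [Tame, ev, key, finsum_eq_single _ 0 fun _ h => Pi.single_eq_of_ne h _, Pi.single_eq_same]
  exact ⟨finite_single _ _, rfl⟩

end Crest.Agent.N265.V
end
end

-- ▼ part N265/V/Defs

/-! # Row 265, layer V: definitions -/

set_option autoImplicit false
noncomputable section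
open MvPolynomial Module

namespace Crest.Agent.N265.V
open GM

/-- the differential of a family of polynomials -/
def dS (x : Pt) {ι : Type} (s : ι → R) : Pt →ₗ[ℂ] (ι → ℂ) := LinearMap.pi fun i => Jac.dL x (s i)
lemma dS_apply (x : Pt) {ι : Type} (s : ι → R) (ξ : Pt) (i : ι) : dS x s ξ i = dAt x ξ (s i) := rfl
lemma mem_ker_dS {x : Pt} {ι : Type} {s : ι → R} {ξ : Pt} :
    ξ ∈ LinearMap.ker (dS x s) ↔ ∀ i, dAt x ξ (s i) = 0 := funext_iff
/-- `T`-fixed directions at points of block weights `w` -/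
def fixS (w : ℕ → ℤ) : Submodule ℂ Pt := Bun.suppOn fun v : Var => v.2.2 = w v.1
lemma mem_fixS {w : ℕ → ℤ} {ξ : Pt} : ξ ∈ fixS w ↔ ∀ v : Var, v.2.2 ≠ w v.1 → ξ v = 0 := Iff.rfl
/-- the ideal of a section -/
def sI {ι : Type} (s : ι → R) : Ideal R := Ideal.span (Set.range s)
lemma mem_sI {ι : Type} (s : ι → R) (i : ι) : s i ∈ sI s := Ideal.subset_span ⟨i, rfl⟩
/-- `I^k M` -/
def ipw (I : Ideal R) (M : GM) (k : ℕ) : Submodule R M.M := I ^ k • ⊤
/-- the classes of `I^k M / I^(k+1) M` -/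
def grs (Q : Spc) (I : Ideal R) (M : GM) : ℤ → G Q :=
  zs fun k => cq Q M (ipw I M k) (ipw I M (k + 1))

/-- the cone of `s` on `W` lies in `E` over the points of `X` -/
structure Syz (W X : Spc) (E : Bun X) (s : E.ι → R) : Prop where
  sub : X.Sub W
  hmg : ∀ i, Hmg (E.deg i) (s i)
  syz : ∀ x ∈ X.pts, ∀ a : E.ι → ℂ, (∀ v ∈ E.L x, ∑ i, a i * v i = 0) →
    ∃ μ : E.ι → R, (∀ i, eval x (μ i) = a i) ∧ ∑ i, μ i * s i ∈ W.I
lemma _root_.Crest.Agent.N265.Cone.toSyz {W Q : Spc} {E : Bun Q} {s : E.ι → R} (h : Cone W Q E s) :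
    Syz W Q E s := ⟨h.sub, h.hmg, h.syz⟩

/-- a graded submodule `⊕ A k T^k` of the Rees module -/
structure Sys (M : GM) (I : Ideal R) (A : ℕ → Submodule R M.M) : Prop where
  stab : ∀ k, M.Stab (A k)
  le : ∀ k, A k ≤ ipw I M k
  mul : ∀ k, ∀ r ∈ I, ∀ a ∈ A k, r • a ∈ A (k + 1)

/-- `Z` is the scheme-theoretic zero set of `s` on `W`, and both are smooth along `Z` -/
structure Reg (W Z : Spc) {ι : Type} (s : ι → R) : Prop where
  sub : Z.Sub W
  zero : ∀ x ∈ W.pts, x ∈ Z.pts ↔ ∀ i, eval x (s i) = 0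
  sm : ∀ z ∈ Z.pts, W.SmAt z
  tan : ∀ z ∈ Z.pts,
    (finrank ℂ (W.Tan z ⊓ LinearMap.ker (dS z s) : Submodule ℂ Pt) : ℕ∞) ≤ Z.ldim z

end Crest.Agent.N265.V
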