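import Crest.Agent.N265.V.Defs
import Crest.Agent.N265.CA.Der
import Crest.Agent.N265.Sp.Dim

-- ▼ part N265/V/Cone
section

/-! # Row 265, layer V, task V2: powers of an ideal, the syzygy condition, uniform re-embedding -/

set_option autoImplicit false
noncomputable section
open MvPolynomial Module

namespace Crest.Agent.N265.V
open GM
variable {W W' X X' Q Q' : Spc} {M : GM} {I : Ideal R}

lemma ipw_zero (I : Ideal R) (M : GM) : ipw I M 0 = ⊤ := by simp [ipw]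
lemma ipw_succ (I : Ideal R) (M : GM) (k : ℕ) : ipw I M (k + 1) = I • ipw I M k := by
  rw [ipw, ipw, pow_succ', Submodule.mul_smul]
lemma ipw_succ_le (I : Ideal R) (M : GM) (k : ℕ) : ipw I M (k + 1) ≤ ipw I M k :=
  ipw_succ I M k ▸ Submodule.smul_le_right
lemma smul_mem_ipw {r : R} {k : ℕ} (hr : r ∈ I ^ k) (m : M.M) : r • m ∈ ipw I M k :=
  Submodule.smul_mem_smul hr trivial
lemma stab_ipw (hI : ∀ r ∈ I, gam r ∈ I) (M : GM) (k : ℕ) : M.Stab (ipw I M k) :=
  stab_smul (gam_pow hI k) (stab_top M)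
lemma map_ipw {N : GM} (f : M.M →ₗ[R] N.M) (hf : Function.Surjective f) (k : ℕ) :
    (ipw I M k).map f = ipw I N k := by
  rw [ipw, Submodule.map_smul'', Submodule.map_top, LinearMap.range_eq_top.2 hf, ipw]
lemma map_ipw_le {N : GM} (f : M.M →ₗ[R] N.M) (k : ℕ) : (ipw I M k).map f ≤ ipw I N k := by
  rw [ipw, Submodule.map_smul'']
  exact Submodule.smul_mono le_rfl le_top
lemma smul_mem_ipw_succ {r : R} {k : ℕ} (hr : r ∈ I) {m : M.M} (hm : m ∈ ipw I M k) :
    r • m ∈ ipw I M (k + 1) := ipw_succ I M k ▸ Submodule.smul_mem_smul hr hm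
lemma sys_ipw (hI : ∀ r ∈ I, gam r ∈ I) (M : GM) : Sys M I (ipw I M) :=
  ⟨stab_ipw hI M, fun _ => le_rfl, fun _ _ hr _ => smul_mem_ipw_succ hr⟩
lemma sys_ipw_succ (hI : ∀ r ∈ I, gam r ∈ I) (M : GM) : Sys M I fun k => ipw I M (k + 1) :=
  ⟨fun _ => stab_ipw hI M _, ipw_succ_le I M, fun _ _ hr _ => smul_mem_ipw_succ hr⟩
lemma sys_bot (M : GM) (I : Ideal R) : Sys M I fun _ => ⊥ :=
  ⟨fun _ => stab_bot M, fun _ => bot_le, fun _ r _ _ => Submodule.smul_mem _ r⟩
lemma Sys.inf {A : ℕ → Submodule R M.M} (h : Sys M I A) {N : Submodule R M.M} (hN : M.Stab N) :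
    Sys M I fun k => N ⊓ A k :=
  ⟨fun k => stab_inf hN (h.stab k), fun k => inf_le_right.trans (h.le k),
    fun k r hr a ha => ⟨N.smul_mem r ha.1, h.mul k r hr a ha.2⟩⟩
/-- the powers `I^k N` of a graded submodule, seen in the big module -/
lemma sys_map (hI : ∀ r ∈ I, gam r ∈ I) {N : GM} {f : N.M →ₗ[R] M.M} (hf : Deg0 f) :
    Sys M I fun k => (ipw I N k).map f :=
  ⟨fun k => stab_map hf (stab_ipw hI N k), map_ipw_le f, by
    rintro k r hr _ ⟨a, ha, rfl⟩
    exact ⟨_, smul_mem_ipw_succ hr ha, map_smul f r a⟩⟩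
/-- subquotients killed by a power of the ideal are supported on the zero set -/
lemma sup_of_pow {ι : Type} {s : ι → R} (hQ : Q.Sub W)
    (hz : ∀ x ∈ W.pts, (∀ i, eval x (s i) = 0) → x ∈ Q.pts) (hM : M.On W) {A B : Submodule R M.M}
    {k : ℕ} (h : ∀ r ∈ sI s ^ k, ∀ a ∈ A, r • a ∈ B) : Sup Q M A B := by
  intro x h1 h2
  by_cases hx : x ∈ W.pts
  · obtain ⟨i, hi⟩ := not_forall.1 (mt (hz x hx) h2)
    exact ⟨s i ^ k, by rw [map_pow]; exact pow_ne_zero k hi,
      h _ (Ideal.pow_mem_pow (mem_sI s i) k)⟩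
  · exact sup_of_on hM A B x (hQ.1 ▸ h1) hx
/-- local version of `cq_map` -/
lemma cq_loc {N : GM} {f : M.M →ₗ[R] N.M} (hf : Deg0 f) {A B : Submodule R M.M}
    {A' B' : Submodule R N.M} (hA : M.Stab A) (hB : M.Stab B) (hA' : N.Stab A') (hB' : N.Stab B')
    (hM : M.DegIn X.B) (hN : N.DegIn X.B) (hS : Sup X M A B) (hS' : Sup X N A' B')
    (h1 : ∀ a ∈ A, f a ∈ A') (h2 : ∀ a ∈ A, a ∈ B → f a ∈ B')
    (h3 : ∀ x ∈ X.pts, ∃ r : R, eval x r ≠ 0 ∧ (∀ a ∈ A, f a ∈ B' → r • a ∈ B) ∧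
      ∀ a' ∈ A', ∃ a ∈ A, f a - r • a' ∈ B') : cq X M A B = cq X N A' B' := by
  rw [cq_eq hA hB, cq_eq hA' hB']
  refine cl_loc (on_sq hM hS) (on_sq hN hS') (sqMap hA hB hA' hB' f h1 h2) (sqMap_deg0 hf _ _)
    fun x hx => ?_
  obtain ⟨r, hr, h4, h5⟩ := h3 x hx
  refine ⟨r, hr, fun m hm => ?_, fun m => ?_⟩
  · obtain ⟨a, rfl⟩ := mkq_surj (hA := hA) (hB := hB) m
    rw [sqMap_mkq, mkq_eq_zero] at hm
    rw [← map_smul, mkq_eq_zero]
    exact h4 a a.2 hm
  · obtain ⟨a', rfl⟩ := mkq_surj (hA := hA') (hB := hB') m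
    obtain ⟨a, ha, h6⟩ := h5 a' a'.2
    exact ⟨mkq hA hB ⟨a, ha⟩, by rw [sqMap_mkq, ← map_smul, mkq_eq]; exact h6⟩
lemma incl_cq {Z : Spc} (hZ : Z.Sub X) (hM : M.DegIn X.B) {A B : Submodule R M.M}
    (hS : Sup Z M A B) : incl Z X (cq Z M A B) = cq X M A B := by
  unfold cq
  split_ifs with h
  · exact incl_cl hZ (on_sq (hZ.1 ▸ hM) hS)
  · exact map_zero _
lemma Sup.sub {Z : Spc} (hZ : Z.Sub X) {A B : Submodule R M.M} (hS : Sup Z M A B) : Sup X M A B :=
  fun x h1 h2 => hS x (hZ.1 ▸ h1) fun h => h2 (hZ.2 h)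
lemma cq_sub {N : Submodule R M.M} (hN : M.Stab N) : cq X M N ⊥ = cl X (M.sub N hN) := by
  rw [cq_eq hN (stab_bot M)]
  refine (cl_bij (A := M.sub N hN) (mkq hN (stab_bot M)) (fun _ => rfl) ⟨?_, mkq_surj⟩).symm
  exact (injective_iff_map_eq_zero _).2 fun m hm => Subtype.ext (mkq_eq_zero.1 hm)

lemma syz_of_sec (E : Bun W) {s : E.ι → R} (hs : E.IsSec s) (hh : ∀ i, Hmg (E.deg i) (s i)) :
    Syz W W E s :=
  ⟨⟨rfl, subset_rfl⟩, hh, fun x hx a ha => by
    obtain ⟨μ, h1, h2⟩ := E.alg.cogen x hx a ha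
    exact ⟨μ, congrFun h1, fun y hy => by simpa using h2 y hy _ (hs y hy)⟩⟩
lemma Syz.pull {E : Bun X} {s : E.ι → R} (h : Syz W X E s) (hW : W'.Sub W) (hX : X'.Sub X)
    (hX' : X'.Sub W') : Syz W' X' (E.pull hX.proj) s :=
  ⟨hX', h.hmg, fun x hx a ha => by
    obtain ⟨μ, h1, h2⟩ := h.syz x (hX.2 hx) a fun v hv =>
      ha v (by change v ∈ E.L (restr X.B x); rwa [X.restr_eq (hX.2 hx)])
    exact ⟨μ, h1, fun y hy => h2 y (hW.2 hy)⟩⟩
lemma cone_of_sec (E : Bun W) {s : E.ι → R} (hs : E.IsSec s) (hh : ∀ i, Hmg (E.deg i) (s i))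
    (hQ : Q.Sub W) (hz : ∀ x ∈ W.pts, x ∈ Q.pts ↔ ∀ i, eval x (s i) = 0) :
    Cone W Q (E.pull hQ.proj) s :=
  ⟨hQ, hh, hz, ((syz_of_sec E hs hh).pull ⟨rfl, subset_rfl⟩ hQ hQ).syz⟩
lemma cone_pull {E : Bun Q} {s : E.ι → R} (h : Cone W Q E s) (hW : W'.Sub W) (hQ : Q'.Sub Q)
    (hQ' : Q'.Sub W') (hz : ∀ x ∈ W'.pts, x ∈ Q.pts → x ∈ Q'.pts) :
    Cone W' Q' (E.pull hQ.proj) s :=
  ⟨hQ', h.hmg, fun x hx => ⟨fun h' => (h.zero x (hW.2 hx)).1 (hQ.2 h'),
    fun h' => hz x hx ((h.zero x (hW.2 hx)).2 h')⟩, (h.toSyz.pull hW hQ hQ').syz⟩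
/-- the derivative of the section lies in the bundle -/
lemma Syz.dS_mem {E : Bun X} {s : E.ι → R} (h : Syz W X E s) {x ξ : Pt} (hx : x ∈ X.pts)
    (h0 : ∀ i, eval x (s i) = 0) (hξ : ξ ∈ W.Tan x) : dS x s ξ ∈ E.L x := by
  rw [← perp_perp (E.L x)]
  intro a ha
  obtain ⟨μ, h1, h2⟩ := h.syz x hx a ha
  have h3 := hξ _ h2
  rw [← Jac.dL_apply, map_sum, LinearMap.sum_apply] at h3
  simpa only [Jac.dL_apply, dAt_mul, h0, h1, zero_mul, add_zero, dS_apply, mul_comm (a _)] using h3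
/-- Uniform re-embedding. Apply `Bun.exists_unif` to the trivial bundle `triv W E.deg` on `W`, get
`f`; `E' = f(E)`, `s' = f s`. With a local retraction `H f = r` on `W` (`IsAlg.exists_retr`) the
syzygy for `a'` is `μ' = (r a' + Hᵀ(μ - fᵀ a')) / r(x)`, `μ` the syzygy for `fᵀ(x) a'`. -/
theorem Syz.exists_unif {E : Bun X} {s : E.ι → R} (h : Syz W X E s) :
    ∃ (E' : Bun X) (s' : E'.ι → R) (δ : D), δ ∈ DS X.B ∧ E'.Unif δ ∧ Syz W X E' s' ∧
      E'.kl = E.kl ∧ (∀ x ∈ X.pts, finrank ℂ (E'.L x) = finrank ℂ (E.L x)) ∧ sI s' ≤ sI s ∧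
      ∀ x ∈ W.pts, ∃ r : R, eval x r ≠ 0 ∧ ∀ a ∈ sI s, r * a ∈ sI s' ⊔ W.I := by
  obtain ⟨A, δ, f, hδ, hu, hf, hi⟩ := (Bun.triv W E.deg fun i => h.sub.1 ▸ E.hdeg i).exists_unif
  change Matrix A.ι E.ι R at f
  change MHmg E.deg A.deg f at hf
  have hk : ∀ (U : Submodule ℂ (E.ι → ℂ)), ∀ x ∈ W.pts, U ⊓ LinearMap.ker (mev x f) = ⊥ :=
    fun U x hx => by
      have : LinearMap.ker (mev x f) = ⊥ := LinearMap.ker_eq_bot.2 (hi x hx).1
      rw [this, inf_bot_eq]
  have hr : ∀ x ∈ W.pts, ∃ (r : R) (H : Matrix E.ι A.ι R), eval x r ≠ 0 ∧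
      ∀ y ∈ W.pts, ∀ v, mev y H (mev y f v) = eval y r • v := fun x hx => by
    obtain ⟨r, H, h1, h2⟩ := (isAlg_const (X := W) ⊤).exists_retr f hx (hk _ x hx)
    exact ⟨r, H, h1, fun y hy v => (h2 y hy).2 v trivial⟩
  have es : ∀ y j, eval y (∑ i, f j i * s i) = mev y f (fun i => eval y (s i)) j := fun y j => by
    simp [mev_apply]
  refine ⟨⟨A.ι, A.deg, fun j => h.sub.1 ▸ A.hdeg j, fun x => (E.L x).map (mev x f), E.eqv.map hf,
    E.alg.map_of_inj f fun x hx => hk _ x (h.sub.2 hx)⟩, fun j => ∑ i, f j i * s i, δ,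
    h.sub.1 ▸ hδ, hu, ⟨h.sub, fun j => Hmg.sum _ fun i _ => ?_, fun x hx a ha => ?_⟩,
    (kl_iso (A := E) f hf fun x hx => ⟨hk _ x (h.sub.2 hx), rfl⟩).symm,
    fun x hx => B0.finrank_map_of_inj (hk _ x (h.sub.2 hx)), Ideal.span_le.2 ?_, fun x hx => ?_⟩
  · simpa only [sub_add_cancel] using (hf j i).mul (h.hmg i)
  · change A.ι → ℂ at a
    obtain ⟨μ, h1, h2⟩ := h.syz x hx (mev x f.transpose a) fun v hv => by
      rw [← pair_mev]; exact ha _ ⟨v, hv, rfl⟩
    obtain ⟨r, H, r0, hH⟩ := hr x (h.sub.2 hx)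
    have e : ∀ y j, eval y (C (eval x r)⁻¹ * (r * C (a j) +
        ∑ i, H i j * (μ i - ∑ l, f l i * C (a l)))) = (eval x r)⁻¹ * (eval y r * a j +
          mev y H.transpose (fun i => eval y (μ i) - mev y f.transpose a i) j) := fun y j => by
      simp [mev_apply]
    refine ⟨fun j => C (eval x r)⁻¹ * (r * C (a j) + ∑ i, H i j * (μ i - ∑ l, f l i * C (a l))),
      fun j => ?_, fun y hy => ?_⟩
    · rw [e]
      simp [h1, mev_apply, r0]
    · have h3 := h2 y hy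
      have h4 := pair_mev y H (fun i => eval y (μ i) - mev y f.transpose a i)
        (mev y f fun i => eval y (s i))
      have h5 := pair_mev y f a fun i => eval y (s i)
      simp only [hH y hy, Pi.smul_apply, smul_eq_mul, sub_mul, mul_left_comm _ (eval y r),
        Finset.sum_sub_distrib, ← Finset.mul_sum] at h4
      simp only [map_sum, map_mul] at h3
      rw [map_sum, Finset.sum_congr rfl fun j _ => by rw [map_mul, e, es]]
      simp only [mul_assoc, add_mul, ← Finset.mul_sum, Finset.sum_add_distrib]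
      rw [← h4, h3, h5]
      ring
  · rintro _ ⟨j, rfl⟩
    exact Ideal.sum_mem _ fun i _ => Ideal.mul_mem_left _ _ (mem_sI s i)
  · obtain ⟨r, H, r0, hH⟩ := hr x hx
    refine ⟨r, r0, fun a ha => ?_⟩
    induction ha using Submodule.span_induction with
    | mem _ ha =>
      obtain ⟨i, rfl⟩ := ha
      rw [← add_sub_cancel (∑ j, H i j * ∑ l, f j l * s l) (r * s i)]
      refine Submodule.add_mem_sup (Ideal.sum_mem _ fun j _ => Ideal.mul_mem_left _ _
        (mem_sI (fun j => ∑ l, f j l * s l) j)) fun y hy => ?_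
      have := congrFun (hH y hy fun i => eval y (s i)) i
      rw [mev_apply] at this
      rw [map_sub, map_sum]
      simp only [map_mul, es, this, Pi.smul_apply, smul_eq_mul, sub_self]
    | zero => simp
    | add a b _ _ ha hb => rw [mul_add]; exact add_mem ha hb
    | smul c a _ ha => rw [smul_eq_mul, mul_left_comm]; exact Ideal.mul_mem_left _ _ ha
lemma pow_smul_mem_ipw {I' : Ideal R} (hM : M.Red W) {r : R} (h : ∀ a ∈ I, r * a ∈ I' ⊔ W.I)
    (k : ℕ) : ∀ m ∈ ipw I M k, r ^ k • m ∈ ipw I' M k := by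
  induction k with
  | zero => intro m _; rw [ipw_zero]; trivial
  | succ k ih =>
    intro m hm
    rw [ipw_succ] at hm
    refine Submodule.smul_induction_on hm (fun a ha m hm => ?_) fun x y hx hy => ?_
    · obtain ⟨b, hb, c, hc, e⟩ := Submodule.mem_sup.1 (h a ha)
      rw [smul_smul, show r ^ (k + 1) * a = r * a * r ^ k by ring, mul_smul, ← e, add_smul,
        hM.ann c hc, add_zero]
      exact smul_mem_ipw_succ hb (ih m hm)
    · rw [smul_add]; exact add_mem hx hy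
/-- Change of ideal: `A' k = A k ⊓ I'^k M` (use `cq_loc` with the identity and `r ^ k`). -/
theorem sys_change {I' : Ideal R} (hX : X.Sub W) (hM : M.Red W) (hI' : ∀ r ∈ I', gam r ∈ I')
    (hle : I' ≤ I) (hloc : ∀ x ∈ W.pts, ∃ r : R, eval x r ≠ 0 ∧ ∀ a ∈ I, r * a ∈ I' ⊔ W.I)
    {A B : ℕ → Submodule R M.M} (hA : Sys M I A) (hB : Sys M I B) (hS : ∀ k, Sup X M (A k) (B k)) :
    ∃ A' B' : ℕ → Submodule R M.M, Sys M I' A' ∧ Sys M I' B' ∧ (∀ k, Sup X M (A' k) (B' k)) ∧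
      ∀ k, cq X M (A' k) (B' k) = cq X M (A k) (B k) := by
  have key : ∀ {A}, Sys M I A → Sys M I' fun k => A k ⊓ ipw I' M k := fun h =>
    ⟨fun k => stab_inf (h.stab k) (stab_ipw hI' M k), fun _ => inf_le_right,
      fun k r hr a ha => ⟨h.mul k r (hle hr) a ha.1, smul_mem_ipw_succ hr ha.2⟩⟩
  have hS' : ∀ k, Sup X M (A k ⊓ ipw I' M k) (B k ⊓ ipw I' M k) := fun k x h1 h2 =>
    let ⟨r, hr, h⟩ := hS k x h1 h2
    ⟨r, hr, fun a ha => ⟨h a ha.1, Submodule.smul_mem _ r ha.2⟩⟩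
  have hd : M.DegIn X.B := hX.1 ▸ hM.deg
  refine ⟨_, _, key hA, key hB, hS', fun k => cq_loc (f := LinearMap.id) (fun _ => rfl)
    ((key hA).stab k) ((key hB).stab k) (hA.stab k) (hB.stab k) hd hd (hS' k) (hS k)
    (fun _ h => h.1) (fun _ _ h => h.1) fun x hx => ?_⟩
  obtain ⟨r, hr, h⟩ := hloc x (hX.2 hx)
  exact ⟨r ^ k, by rw [map_pow]; exact pow_ne_zero k hr,
    fun a ha hb => Submodule.smul_mem _ _ ⟨hb, ha.2⟩, fun a ha => ⟨r ^ k • a,
      ⟨Submodule.smul_mem _ _ ha, pow_smul_mem_ipw hM h k a (hA.le k ha)⟩, by simp⟩⟩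

end Crest.Agent.N265.V
end
end

-- ▼ part N265/V/Rees
section

/-!
# Row 265, layer V: the Rees module as a graded module (helper94)

`RD M` : elements `s i` of `R` and variables `y i` of a fresh block with
`deg (y i) = deg (s i) + τ`.  On `M[T]` the variable `y i` acts as `s i · T`.
`rees ρ` is the graded module `⊕ I^k M T^k`; `rs ρ A` the submodule `⊕ A k T^k`.
-/

set_option autoImplicit false
noncomputable section
open MvPolynomial

namespace Crest.Agent.N265.V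

open GM

theorem isNoetherian_of_fin {N : Type} [AddCommGroup N] [Module R N] [Module.Finite R N]
    (h : ∃ V : Finset Var, ∀ v ∉ V, ∀ m : N, (X v : R) • m = 0) : IsNoetherian R N := by
  obtain ⟨V, hV⟩ := h
  have hJ : Jac.FinJ (Module.annihilator R N) := ⟨V, fun v hv => Module.mem_annihilator.2 (hV v hv)⟩
  have := hJ.noeth
  have hT : Module.IsTorsionBySet R N (Module.annihilator R N) :=
    Module.isTorsionBySet_annihilator R N
  let _ := hT.module
  have : IsScalarTower R (R ⧸ Module.annihilator R N) N := hT.isScalarTower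
  have : Module.Finite (R ⧸ Module.annihilator R N) N := Module.Finite.of_restrictScalars_finite R _ _
  have h1 : IsNoetherian (R ⧸ Module.annihilator R N) N := inferInstance
  rw [isNoetherian_iff'] at h1 ⊢
  let φ : Submodule R N → Submodule (R ⧸ Module.annihilator R N) N := fun P =>
    { carrier := P
      add_mem' := P.add_mem
      zero_mem' := P.zero_mem
      smul_mem' := by
        intro c x hx
        obtain ⟨c, rfl⟩ := Ideal.Quotient.mk_surjective c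
        exact P.smul_mem c hx }
  have hφ : StrictMono φ := fun _ _ h => h
  exact hφ.wellFoundedGT

/-- data for a Rees construction -/
structure RD (M : GM) where
  B : Finset ℕ
  γ : ℕ
  new : γ ∉ B
  deg : M.DegIn B
  ι : Type
  [fin : Fintype ι]
  s : ι → R
  d : ι → D
  hs : ∀ i, Hmg (d i) (s i)
  y : ι → Var
  yinj : Function.Injective y
  blk : ∀ i, (y i).1 = γ
  δ : D
  hδ : δ ∈ DS B
  hy : ∀ i, vdeg (y i) = d i + (eB γ - δ)

attribute [instance] RD.fin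

namespace RD
variable {M : GM} (ρ : RD M)

/-- the degree of `T` -/
def τ : D := eB ρ.γ - ρ.δ
theorem gam_I : ∀ r ∈ sI ρ.s, gam r ∈ sI ρ.s := gam_span ρ.hs
theorem y_new (i : ρ.ι) : (ρ.y i).1 ∉ ρ.B := by rw [ρ.blk]; exact ρ.new

open Classical in
/-- `y i ↦ s i · T` -/
def θ : R →+* Polynomial R := (aeval (R := ℂ) fun v =>
  if h : ∃ i, ρ.y i = v then Polynomial.monomial 1 (ρ.s h.choose) else Polynomial.C (X v)).toRingHom

theorem θ_C (c : ℂ) : ρ.θ (C c) = Polynomial.C (C c) := by simp [θ]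
theorem θ_y (i : ρ.ι) : ρ.θ (X (ρ.y i)) = Polynomial.monomial 1 (ρ.s i) := by
  have h : ∃ j, ρ.y j = ρ.y i := ⟨i, rfl⟩
  simp only [θ, AlgHom.toRingHom_eq_coe, RingHom.coe_coe, aeval_X, dif_pos h]
  rw [ρ.yinj h.choose_spec]
theorem θ_X {v : Var} (h : ¬ ∃ i, ρ.y i = v) : ρ.θ (X v) = Polynomial.C (X v) := by
  simp only [θ, AlgHom.toRingHom_eq_coe, RingHom.coe_coe, aeval_X, dif_neg h]

theorem θ_kill (r : R) : ρ.θ (kill ρ.B r) = Polynomial.C (kill ρ.B r) := by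
  induction r using MvPolynomial.induction_on with
  | C c => rw [show kill ρ.B (C c) = C c by simp [kill], θ_C]
  | add p q hp hq => simp only [map_add, hp, hq]
  | mul_X p v hp =>
    by_cases h : v.1 ∈ ρ.B
    · have h' : ¬ ∃ i, ρ.y i = v := by rintro ⟨i, rfl⟩; exact ρ.y_new i h
      have : kill ρ.B (X v) = X v := by simp [kill, h]
      simp only [map_mul, hp, this, ρ.θ_X h']
    · have : kill ρ.B (X v) = 0 := by simp [kill, h]
      simp only [map_mul, this, mul_zero, map_zero]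

/-- `M[T]` with the twisted action -/
def PM (_ : RD M) : Type := PolynomialModule R M.M
instance : AddCommGroup ρ.PM := inferInstanceAs (AddCommGroup (PolynomialModule R M.M))
instance : Module (Polynomial R) ρ.PM :=
  inferInstanceAs (Module (Polynomial R) (PolynomialModule R M.M))
instance : Module R ρ.PM := Module.compHom _ ρ.θ
theorem smul_def (r : R) (f : ρ.PM) : r • f = ρ.θ r • f := rfl

/-- coefficients -/
def co (k : ℕ) : ρ.PM →+ M.M where
  toFun f := PolynomialModule.coeff (R := R) f k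
  map_zero' := rfl
  map_add' _ _ := rfl
/-- `m T^k` -/
def sg (k : ℕ) : M.M →+ ρ.PM where
  toFun m := PolynomialModule.single R k m
  map_zero' := PolynomialModule.single_zero k
  map_add' _ _ := PolynomialModule.single_add k _ _

theorem co_sg (k j : ℕ) (m : M.M) : ρ.co j (ρ.sg k m) = if k = j then m else 0 := by
  change (Finsupp.single k m) j = _
  rw [Finsupp.single_apply]
theorem co_sg_self (k : ℕ) (m : M.M) : ρ.co k (ρ.sg k m) = m := by rw [co_sg, if_pos rfl]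
theorem ext_co {f f' : ρ.PM} (h : ∀ k, ρ.co k f = ρ.co k f') : f = f' :=
  PolynomialModule.coeff_injective (Finsupp.ext h)
theorem exists_supp (f : ρ.PM) : ∃ S : Finset ℕ, ∀ k ∉ S, ρ.co k f = 0 :=
  ⟨(PolynomialModule.coeff (R := R) f).support, fun _ h => Finsupp.notMem_support_iff.1 h⟩
theorem exists_sum (f : ρ.PM) : ∃ S : Finset ℕ, f = ∑ k ∈ S, ρ.sg k (ρ.co k f) := by
  obtain ⟨S, hS⟩ := ρ.exists_supp f
  refine ⟨S, ρ.ext_co fun j => ?_⟩
  rw [map_sum]
  simp only [co_sg, Finset.sum_ite_eq']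
  split_ifs with h
  · rfl
  · exact hS j h

theorem co_monomial (i : ℕ) (r : R) (f : ρ.PM) (n : ℕ) :
    ρ.co n (Polynomial.monomial i r • f) = if i ≤ n then r • ρ.co (n - i) f else 0 :=
  PolynomialModule.monomial_smul_apply i r f n
theorem co_C (r : R) (f : ρ.PM) (n : ℕ) : ρ.co n (Polynomial.C r • f) = r • ρ.co n f := by
  rw [← Polynomial.monomial_zero_left, co_monomial]; simp
theorem co_c (c : ℂ) (f : ρ.PM) (n : ℕ) : ρ.co n ((C c : R) • f) = (C c : R) • ρ.co n f := by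
  rw [smul_def, θ_C, co_C]
theorem co_kill (r : R) (f : ρ.PM) (n : ℕ) : ρ.co n (kill ρ.B r • f) = r • ρ.co n f := by
  rw [smul_def, θ_kill, co_C, ρ.deg.kill_smul]
theorem co_y_zero (i : ρ.ι) (f : ρ.PM) : ρ.co 0 ((X (ρ.y i) : R) • f) = 0 := by
  rw [smul_def, θ_y, co_monomial]; simp
theorem co_y_succ (i : ρ.ι) (f : ρ.PM) (n : ℕ) :
    ρ.co (n + 1) ((X (ρ.y i) : R) • f) = ρ.s i • ρ.co n f := by
  rw [smul_def, θ_y, co_monomial]; simp
theorem co_X {v : Var} (h : ¬ ∃ i, ρ.y i = v) (f : ρ.PM) (n : ℕ) :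
    ρ.co n ((X v : R) • f) = (X v : R) • ρ.co n f := by
  rw [smul_def, ρ.θ_X h, co_C]
theorem kill_sg (r : R) (k : ℕ) (m : M.M) : kill ρ.B r • ρ.sg k m = ρ.sg k (r • m) :=
  ρ.ext_co fun j => by rw [co_kill, co_sg, co_sg]; split_ifs <;> simp
theorem y_sg (i : ρ.ι) (k : ℕ) (m : M.M) :
    (X (ρ.y i) : R) • ρ.sg k m = ρ.sg (k + 1) (ρ.s i • m) :=
  ρ.ext_co fun j => by
    cases j with
    | zero => rw [co_y_zero, co_sg]; simp
    | succ j => rw [co_y_succ, co_sg, co_sg]; by_cases h : k = j <;> simp [h]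

/-- the grading operator on `M[T]` -/
def g0 (f : ρ.PM) : ρ.PM := PolynomialModule.ofCoeff R <|
  Finsupp.onFinset (PolynomialModule.coeff (R := R) f).support
    (fun k => (C (chi (k • ρ.τ)) : R) • M.g (ρ.co k f)) fun k hk => by
      by_contra h
      have : ρ.co k f = 0 := Finsupp.notMem_support_iff.1 h
      exact hk (by simp only [this, map_zero, smul_zero])
theorem co_g0 (f : ρ.PM) (k : ℕ) :
    ρ.co k (ρ.g0 f) = (C (chi (k • ρ.τ)) : R) • M.g (ρ.co k f) := rfl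
theorem g0_add (f f' : ρ.PM) : ρ.g0 (f + f') = ρ.g0 f + ρ.g0 f' :=
  ρ.ext_co fun k => by simp only [co_g0, map_add, smul_add]
theorem g0_smul (r : R) (f : ρ.PM) : ρ.g0 (r • f) = gam r • ρ.g0 f := by
  induction r using MvPolynomial.induction_on generalizing f with
  | C c =>
    refine ρ.ext_co fun k => ?_
    rw [gam_C, co_g0, co_c, co_c, co_g0, LinearMap.map_smulₛₗ, gam_C, smul_comm]
  | add p q hp hq => rw [add_smul, g0_add, hp, hq, map_add, add_smul]
  | mul_X p v hp =>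
    rw [mul_smul, hp, map_mul, mul_smul]
    congr 1
    refine ρ.ext_co fun k => ?_
    rw [gam_X, mul_smul, co_c, co_g0]
    by_cases h : ∃ i, ρ.y i = v
    · obtain ⟨i, rfl⟩ := h
      cases k with
      | zero => simp only [co_y_zero, map_zero, smul_zero]
      | succ k =>
        rw [co_y_succ, co_y_succ, co_g0, LinearMap.map_smulₛₗ, ρ.hs i, ρ.hy, succ_nsmul, chi_add,
          chi_add, smul_smul, smul_smul, smul_smul, map_mul, map_mul]
        congr 1
        change _ = C (chi (ρ.d i)) * C (chi ρ.τ) * _ * _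
        ring
    · rw [ρ.co_X h, ρ.co_X h, co_g0, LinearMap.map_smulₛₗ, gam_X, smul_smul, smul_smul, smul_smul]
      congr 1; ring
/-- the grading operator as a semilinear map -/
def g : ρ.PM →ₛₗ[gam] ρ.PM := { toFun := ρ.g0, map_add' := ρ.g0_add, map_smul' := ρ.g0_smul }
theorem co_g (f : ρ.PM) (k : ℕ) : ρ.co k (ρ.g f) = (C (chi (k • ρ.τ)) : R) • M.g (ρ.co k f) := rfl
theorem g_sg {e : D} {m : M.M} (hm : m ∈ M.gr e) (k : ℕ) :
    ρ.g (ρ.sg k m) = (C (chi (e + k • ρ.τ)) : R) • ρ.sg k m :=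
  ρ.ext_co fun j => by
    rw [co_g, co_c, co_sg]
    split_ifs with h
    · rw [mem_gr.1 hm, h, chi_add, map_mul, smul_smul, mul_comm]
    · simp

/-- `⊕ A k T^k` -/
def ps (A : ℕ → Submodule R M.M) (hA : ∀ k, ∀ r ∈ sI ρ.s, ∀ a ∈ A k, r • a ∈ A (k + 1)) :
    Submodule R ρ.PM where
  carrier := {f | ∀ k, ρ.co k f ∈ A k}
  add_mem' := fun ha hb k => by rw [map_add]; exact add_mem (ha k) (hb k)
  zero_mem' := fun k => by rw [map_zero]; exact zero_mem _
  smul_mem' := by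
    intro r f hf
    induction r using MvPolynomial.induction_on generalizing f with
    | C c => intro k; rw [co_c]; exact Submodule.smul_mem _ _ (hf k)
    | add p q hp hq => intro k; rw [add_smul, map_add]; exact add_mem (hp hf k) (hq hf k)
    | mul_X p v hp =>
      rw [mul_smul]
      refine hp fun k => ?_
      by_cases h : ∃ i, ρ.y i = v
      · obtain ⟨i, rfl⟩ := h
        cases k with
        | zero => rw [co_y_zero]; exact zero_mem _
        | succ k => rw [co_y_succ]; exact hA k _ (mem_sI _ i) _ (hf k)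
      · rw [ρ.co_X h]; exact Submodule.smul_mem _ _ (hf k)
theorem sg_mem_ps {A : ℕ → Submodule R M.M} (hA) {k : ℕ} {a : M.M} (ha : a ∈ A k) :
    ρ.sg k a ∈ ρ.ps A hA := fun j => by
  rw [co_sg]
  split_ifs with h
  · exact h ▸ ha
  · exact zero_mem _

/-- `⊕ I^k M T^k` -/
def rs0 : Submodule R ρ.PM := ρ.ps (ipw (sI ρ.s) M) (sys_ipw ρ.gam_I M).mul

theorem rs0_fg : ρ.rs0.FG := by
  classical
  obtain ⟨S, hS⟩ := Module.Finite.fg_top (R := R) (M := M.M)
  refine ⟨S.image (ρ.sg 0), le_antisymm ?_ fun f hf => ?_⟩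
  · rw [Submodule.span_le, Finset.coe_image]
    rintro _ ⟨m, -, rfl⟩
    exact ρ.sg_mem_ps _ (by rw [ipw_zero]; trivial)
  have key : ∀ k, ∀ a ∈ ipw (sI ρ.s) M k,
      ρ.sg k a ∈ Submodule.span R (↑(S.image (ρ.sg 0)) : Set ρ.PM) := by
    intro k
    induction k with
    | zero =>
      intro a ha
      clear ha
      have ha : a ∈ Submodule.span R (↑S : Set M.M) := hS ▸ trivial
      induction ha using Submodule.span_induction with
      | mem x hx => exact Submodule.subset_span (by rw [Finset.coe_image]; exact ⟨x, hx, rfl⟩)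
      | zero => rw [map_zero]; exact zero_mem _
      | add x y _ _ hx hy => rw [map_add]; exact add_mem hx hy
      | smul r x _ hx => rw [← kill_sg]; exact Submodule.smul_mem _ _ hx
    | succ k ih =>
      intro a ha
      rw [ipw_succ] at ha
      refine Submodule.smul_induction_on ha (fun r hr a ha => ?_) fun x y hx hy => ?_
      · induction hr using Submodule.span_induction generalizing a with
        | mem x hx =>
          obtain ⟨i, rfl⟩ := hx
          rw [← y_sg]; exact Submodule.smul_mem _ _ (ih a ha)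
        | zero => rw [zero_smul, map_zero]; exact zero_mem _
        | add x y _ _ hx hy => rw [add_smul, map_add]; exact add_mem (hx a ha) (hy a ha)
        | smul c x _ hx =>
          rw [smul_eq_mul, mul_comm, mul_smul]
          exact hx _ (Submodule.smul_mem _ _ ha)
      · rw [map_add]; exact add_mem hx hy
  obtain ⟨T, hT⟩ := ρ.exists_sum f
  rw [hT]
  exact Submodule.sum_mem _ fun k _ => key k _ (hf k)

theorem exists_V : ∃ V : Finset Var, ∀ v ∉ V, ∀ f : ρ.PM, (X v : R) • f = 0 := by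
  classical
  obtain ⟨V, hV⟩ := M.fin
  refine ⟨V ∪ Finset.univ.image ρ.y, fun v hv f => ρ.ext_co fun k => ?_⟩
  rw [Finset.mem_union, not_or] at hv
  rw [ρ.co_X (by simpa using hv.2), hV v hv.1, map_zero]

theorem g_mem_ps {A : ℕ → Submodule R M.M} (hA) (hs : ∀ k, M.Stab (A k)) {f : ρ.PM}
    (hf : f ∈ ρ.ps A hA) : ρ.g f ∈ ρ.ps A hA := fun k => by
  rw [co_g]; exact Submodule.smul_mem _ _ (hs k _ (hf k))

/-- the Rees module -/
def rees : GM where
  M := ρ.rs0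
  noeth := by
    have : Module.Finite R ρ.rs0 := Module.Finite.iff_fg.2 ρ.rs0_fg
    exact isNoetherian_of_fin (ρ.exists_V.imp fun _ h v hv m => Subtype.ext (h v hv m.1))
  fin := ρ.exists_V.imp fun _ h v hv m => Subtype.ext (h v hv m.1)
  g := (ρ.g.domRestrict ρ.rs0).codRestrict ρ.rs0 fun m =>
    ρ.g_mem_ps _ (stab_ipw ρ.gam_I M) m.2
  diag := by
    rintro ⟨f, hf⟩
    obtain ⟨T, hT⟩ := ρ.exists_sum f
    have : (⟨f, hf⟩ : ρ.rs0) = ∑ k ∈ T, ⟨ρ.sg k (ρ.co k f), ρ.sg_mem_ps _ (hf k)⟩ :=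
      Subtype.ext (by rw [Submodule.coe_sum]; exact hT)
    rw [this]
    refine AddSubgroup.sum_mem _ fun k _ => ?_
    refine stab_induction (stab_ipw ρ.gam_I M k) (P := fun a => ∀ ha : a ∈ ipw (sI ρ.s) M k,
      (⟨ρ.sg k a, ρ.sg_mem_ps _ ha⟩ : ρ.rs0) ∈ AddSubgroup.closure _) ?_ ?_ ?_ _ (hf k) (hf k)
    · intro ha
      have : (⟨ρ.sg k 0, ρ.sg_mem_ps _ ha⟩ : ρ.rs0) = 0 := Subtype.ext (map_zero _)
      rw [this]; exact zero_mem _
    · intro x hx y hy h1 h2 ha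
      have : (⟨ρ.sg k (x + y), ρ.sg_mem_ps _ ha⟩ : ρ.rs0) =
          ⟨ρ.sg k x, ρ.sg_mem_ps _ hx⟩ + ⟨ρ.sg k y, ρ.sg_mem_ps _ hy⟩ := Subtype.ext (map_add _ _ _)
      rw [this]; exact add_mem (h1 hx) (h2 hy)
    · intro e x hx _ ha
      exact AddSubgroup.subset_closure ⟨e + k • ρ.τ, Subtype.ext (ρ.g_sg hx k)⟩

/-- the underlying polynomial -/
def val (f : ρ.rees.M) : ρ.PM := Subtype.val f
theorem val_inj {f f' : ρ.rees.M} (h : ρ.val f = ρ.val f') : f = f' := Subtype.ext h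
theorem val_g (f : ρ.rees.M) : ρ.val (ρ.rees.g f) = ρ.g (ρ.val f) := rfl
theorem val_smul (r : R) (f : ρ.rees.M) : ρ.val (r • f) = r • ρ.val f := rfl
/-- `⊕ A k T^k` inside the Rees module -/
def rs {A : ℕ → Submodule R M.M} (hA : Sys M (sI ρ.s) A) : Submodule R ρ.rees.M :=
  (ρ.ps A hA.mul).comap ρ.rs0.subtype
theorem mem_rs {A : ℕ → Submodule R M.M} (hA : Sys M (sI ρ.s) A) {f : ρ.rees.M} :
    f ∈ ρ.rs hA ↔ ∀ k, ρ.co k (ρ.val f) ∈ A k := Iff.rfl
theorem stab_rs {A : ℕ → Submodule R M.M} (hA : Sys M (sI ρ.s) A) : ρ.rees.Stab (ρ.rs hA) :=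
  fun _ hf => ρ.g_mem_ps hA.mul hA.stab hf

theorem τ_γ : ρ.τ (some ρ.γ) = 1 := by
  simp [τ, eB, ρ.hδ _ ρ.new]
theorem τ_mem : ρ.τ ∈ DS (insert ρ.γ ρ.B) :=
  sub_mem (eB_mem (Finset.mem_insert_self _ _)) (DS_mono (Finset.subset_insert _ _) ρ.hδ)

theorem degIn_rees : ρ.rees.DegIn (insert ρ.γ ρ.B) := by
  intro e he
  rw [eq_bot_iff]
  intro f hf
  refine ρ.val_inj (ρ.ext_co fun k => ?_)
  have h1 := congrArg (fun f => ρ.co k (ρ.val f)) (mem_gr.1 hf)
  simp only [val_g, val_smul, co_g, co_c] at h1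
  have h2 : ρ.co k (ρ.val f) ∈ M.gr (e - k • ρ.τ) := by
    rw [mem_gr, chi_sub, mul_comm, map_mul, mul_smul, ← h1, smul_smul, ← map_mul,
      inv_mul_cancel₀ (chi_ne _), map_one, one_smul]
  rw [ρ.deg _ fun h => he (by
    have := add_mem (DS_mono (Finset.subset_insert ρ.γ _) h) (nsmul_mem ρ.τ_mem k)
    rwa [sub_add_cancel] at this)] at h2
  exact h2

end RD
end Crest.Agent.N265.V
end
end

-- ▼ part N265/V/Tame
section

/-! # Row 265, layer V: Hilbert–Serre for submodules of the Rees module (helper94) -/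

set_option autoImplicit false
noncomputable section
open MvPolynomial Module

namespace Crest.Agent.N265.V
open GM

/-- the underlying element of an element of a piece of a twist -/
def pv (S : Finset ℕ) (N : GM) (d : D) : (piece S (N.shift d)).M →+ N.M where
  toFun m := PieceT.val (B := S) (M := N.shift d) m
  map_zero' := rfl
  map_add' _ _ := rfl
theorem pv_smul {S : Finset ℕ} {N : GM} {d : D} (r : R) (m : (piece S (N.shift d)).M) :
    pv S N d (r • m) = kill S r • pv S N d m := rfl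
theorem pv_g {S : Finset ℕ} {N : GM} {d : D} (m : (piece S (N.shift d)).M) :
    pv S N d ((piece S (N.shift d)).g m) = (C (chi (-d)) : R) • N.g (pv S N d m) := rfl
theorem pv_eq_zero {S : Finset ℕ} {N : GM} {d : D} {m : (piece S (N.shift d)).M}
    (h : pv S N d m = 0) : m = 0 := PieceT.ext (B := S) (M := N.shift d) h
theorem pv_mem {S : Finset ℕ} {N : GM} {d : D} {P : AddSubgroup N.M}
    (h : ∀ e ∈ DS S, ∀ x ∈ N.gr (e + d), x ∈ P) (m : (piece S (N.shift d)).M) : pv S N d m ∈ P := by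
  have : pieceSub S (N.shift d) ≤ P := (AddSubgroup.closure_le _).2 <| by
    rintro x ⟨e, he, hx⟩
    rw [shift_gr] at hx
    exact h e he x hx
  exact this (Subtype.property m)
theorem pv_range {S : Finset ℕ} {N : GM} {d e : D} (he : e ∈ DS S) {x : N.M}
    (hx : x ∈ N.gr (e + d)) : x ∈ (pv S N d).range :=
  ⟨(⟨x, AddSubgroup.subset_closure ⟨e, he, by rw [shift_gr]; exact hx⟩⟩ : pieceSub S (N.shift d)),
    rfl⟩
theorem shift_g {N : GM} {d : D} (m : N.M) :
    (N.shift d).g m = (C (chi (-d)) : R) • N.g m := rfl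

namespace RD
variable {M : GM} (ρ : RD M) {A B : ℕ → Submodule R M.M}
  (hA : Sys M (sI ρ.s) A) (hB : Sys M (sI ρ.s) B)

/-- `⊕ A k / B k` -/
def gq : GM := sq ρ.rees (ρ.rs hA) (ρ.rs hB) (ρ.stab_rs hA) (ρ.stab_rs hB)
/-- the class of an element -/
def cls : ρ.rs hA →ₗ[R] (ρ.gq hA hB).M := mkq (ρ.stab_rs hA) (ρ.stab_rs hB)
theorem g_cls (f : ρ.rs hA) :
    (ρ.gq hA hB).g (ρ.cls hA hB f) = ρ.cls hA hB ⟨ρ.rees.g f.1, ρ.stab_rs hA _ f.2⟩ := rfl
theorem cls_surj (m : (ρ.gq hA hB).M) : ∃ f, ρ.cls hA hB f = m := mkq_surj m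
/-- `a T^k` -/
def el (k : ℕ) (a : A k) : ρ.rs hA :=
  ⟨⟨ρ.sg k a, ρ.sg_mem_ps _ (hA.le k a.2)⟩, ρ.sg_mem_ps hA.mul a.2⟩
/-- the coefficient of `T^k` -/
def cf (k : ℕ) : ρ.rs hA →+ A k where
  toFun f := ⟨ρ.co k (ρ.val f.1), f.2 k⟩
  map_zero' := Subtype.ext (map_zero _)
  map_add' _ _ := Subtype.ext (map_add _ _ _)
theorem cf_el (k : ℕ) (a : A k) : ρ.cf hA k (ρ.el hA k a) = a := Subtype.ext (ρ.co_sg_self k a)
/-- the coefficient of `T^k` on the quotient -/
def cok (k : ℕ) : (ρ.gq hA hB).M →+ (sq M (A k) (B k) (hA.stab k) (hB.stab k)).M :=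
  QuotientAddGroup.lift ((ρ.rs hB).submoduleOf (ρ.rs hA)).toAddSubgroup
    ((mkq (hA.stab k) (hB.stab k)).toAddMonoidHom.comp (ρ.cf hA k)) fun _ hf =>
      mkq_eq_zero.2 (hf k)
theorem cok_mk (k : ℕ) (f : ρ.rs hA) :
    ρ.cok hA hB k (ρ.cls hA hB f) = mkq (hA.stab k) (hB.stab k) (ρ.cf hA k f) := rfl
theorem cok_kill (k : ℕ) (r : R) (m : (ρ.gq hA hB).M) :
    ρ.cok hA hB k (kill ρ.B r • m) = r • ρ.cok hA hB k m := by
  obtain ⟨f, rfl⟩ := ρ.cls_surj hA hB m
  rw [cok_mk, ← map_smul]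
  exact congrArg (mkq (hA.stab k) (hB.stab k)) (Subtype.ext (ρ.co_kill r _ k))
theorem cok_c (k : ℕ) (c : ℂ) (m : (ρ.gq hA hB).M) :
    ρ.cok hA hB k ((C c : R) • m) = (C c : R) • ρ.cok hA hB k m := by
  rw [← cok_kill]; simp [kill]
theorem cok_g (k : ℕ) (m : (ρ.gq hA hB).M) : ρ.cok hA hB k ((ρ.gq hA hB).g m) =
    (C (chi (k • ρ.τ)) : R) • (sq M (A k) (B k) (hA.stab k) (hB.stab k)).g (ρ.cok hA hB k m) := by
  obtain ⟨f, rfl⟩ := ρ.cls_surj hA hB m
  rw [cok_mk, g_mkq, ← map_smul]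
  rfl
theorem eq_zero_of_cok {m : (ρ.gq hA hB).M} (h : ∀ k, ρ.cok hA hB k m = 0) : m = 0 := by
  obtain ⟨f, rfl⟩ := ρ.cls_surj hA hB m
  exact mkq_eq_zero.2 fun k => mkq_eq_zero.1 (h k)
theorem cok_gr {e : D} {m : (ρ.gq hA hB).M} (h : m ∈ (ρ.gq hA hB).gr e) (k : ℕ) :
    ρ.cok hA hB k m ∈ (sq M (A k) (B k) (hA.stab k) (hB.stab k)).gr (e - k • ρ.τ) := by
  have h1 := congrArg (ρ.cok hA hB k) (mem_gr.1 h)
  rw [cok_g, cok_c] at h1
  rw [mem_gr, chi_sub, mul_comm, map_mul, mul_smul, ← h1, smul_smul, ← map_mul,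
    inv_mul_cancel₀ (chi_ne _), map_one, one_smul]

/-- the graded piece of `T`-degree `k` -/
theorem cl_piece (X : Spc) (k : ℕ) {e : D} (he : e ∈ DS ρ.B) :
    cl X (piece ρ.B ((ρ.gq hA hB).shift (k • ρ.τ + e))) =
      cl X ((sq M (A k) (B k) (hA.stab k) (hB.stab k)).shift e) := by
  let φ : (piece ρ.B ((ρ.gq hA hB).shift (k • ρ.τ + e))).M →ₗ[R]
      ((sq M (A k) (B k) (hA.stab k) (hB.stab k)).shift e).M :=
    { toFun := fun m => ρ.cok hA hB k (pv _ _ _ m)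
      map_add' := fun a b => by rw [map_add, map_add]; rfl
      map_smul' := fun r m => by rw [pv_smul, cok_kill]; rfl }
  have hφ : ∀ m, φ m = ρ.cok hA hB k (pv _ _ _ m) := fun _ => rfl
  refine cl_bij φ (fun m => ?_) ⟨?_, fun q => ?_⟩
  · rw [hφ, hφ, pv_g, shift_g, cok_c, cok_g, smul_smul, ← map_mul, ← chi_add,
      show -(k • ρ.τ + e) + k • ρ.τ = -e by abel]
  · rw [injective_iff_map_eq_zero]
    intro m hm
    refine pv_eq_zero (ρ.eq_zero_of_cok hA hB fun j => ?_)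
    by_cases hj : j = k
    · subst hj; exact hm
    refine pv_mem (P := (ρ.cok hA hB j).ker) (fun d hd x hx => ?_) m
    have h1 := ρ.cok_gr hA hB hx j
    rwa [degIn_sq ρ.deg _ fun h => hj (by
      have h2 := h _ ρ.new
      simp only [Finsupp.coe_sub, Finsupp.coe_add, Finsupp.coe_smul, Pi.sub_apply,
        Pi.add_apply, Pi.smul_apply, ρ.τ_γ, hd _ ρ.new, he _ ρ.new] at h2
      simp at h2
      omega)] at h1
  · obtain ⟨⟨a, ha⟩, rfl⟩ := mkq_surj (hA := hA.stab k) (hB := hB.stab k) q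
    have h0 : ∀ ha, ρ.cls hA hB (ρ.el hA k ⟨0, ha⟩) = 0 := fun ha => by
      have : ρ.el hA k ⟨0, ha⟩ = 0 := Subtype.ext (ρ.val_inj (map_zero (ρ.sg k)))
      rw [this, map_zero]
    have key : ∀ a ∈ A k, ∀ ha : a ∈ A k, ρ.cls hA hB (ρ.el hA k ⟨a, ha⟩) ∈
        (pv ρ.B (ρ.gq hA hB) (k • ρ.τ + e)).range := by
      refine stab_induction (hA.stab k) (fun ha => ?_) (fun x hx y hy h1 h2 ha => ?_)
        fun d x hx _ ha => ?_
      · rw [h0]; exact zero_mem _
      · have : ρ.el hA k ⟨x + y, ha⟩ = ρ.el hA k ⟨x, hx⟩ + ρ.el hA k ⟨y, hy⟩ :=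
          Subtype.ext (ρ.val_inj (map_add (ρ.sg k) x y))
        rw [this, map_add]
        exact add_mem (h1 hx) (h2 hy)
      · by_cases hd : d ∈ DS ρ.B
        · refine pv_range (sub_mem hd he) ?_
          rw [show d - e + (k • ρ.τ + e) = d + k • ρ.τ by abel]
          rw [mem_gr, g_cls, ← map_smul]
          exact congrArg _ (Subtype.ext (ρ.val_inj (ρ.g_sg hx k)))
        · rw [ρ.deg d hd] at hx
          obtain rfl : x = 0 := hx
          rw [h0]; exact zero_mem _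
    obtain ⟨m, hm⟩ := key a ha ha
    exact ⟨m, by rw [hφ, hm, cok_mk, cf_el]⟩

theorem kill_of {z : Pt} {r : R} (hr : eval z r ≠ 0) (h : ∀ (f : ρ.PM) k, ρ.co k (r • f) = 0) :
    (ρ.gq hA hB).Kill z :=
  kill_sq.2 ⟨r, hr, fun f _ => (ρ.mem_rs hB).2 fun k => by rw [val_smul, h]; exact zero_mem _⟩
theorem kill_X {z : Pt} {v : Var} (hv : z v ≠ 0) (h1 : v.1 ∉ ρ.B) (h2 : v ∉ Set.range ρ.y) :
    (ρ.gq hA hB).Kill z :=
  ρ.kill_of hA hB (r := X v) (by simpa using hv) fun f k => by rw [ρ.co_X h2, ρ.deg.X_smul h1]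
theorem kill_sup {z : Pt}
    (h : ∀ k, ∃ r : R, eval (restr ρ.B z) r ≠ 0 ∧ ∀ a ∈ A k, r • a ∈ B k) : (ρ.gq hA hB).Kill z := by
  choose r hr hr' using h
  refine kill_iff.2 fun m => ?_
  obtain ⟨f, rfl⟩ := ρ.cls_surj hA hB m
  obtain ⟨S, hS'⟩ := ρ.exists_supp (ρ.val f.1)
  refine ⟨kill ρ.B (∏ k ∈ S, r k), ?_, ρ.eq_zero_of_cok hA hB fun k => ?_⟩
  · rw [eval_kill, map_prod]
    exact Finset.prod_ne_zero_iff.2 fun k _ => hr k
  · rw [cok_kill, cok_mk, ← map_smul, mkq_eq_zero]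
    change _ • ρ.co k (ρ.val f.1) ∈ _
    by_cases hk : k ∈ S
    · rw [← Finset.prod_erase_mul _ _ hk, mul_smul]
      exact Submodule.smul_mem _ _ (hr' k _ (f.2 k))
    · rw [hS' k hk, smul_zero]; exact zero_mem _
theorem kill_syz {z : Pt} (μ : ρ.ι → R) (h1 : ∑ i, eval (restr ρ.B z) (μ i) * z (ρ.y i) ≠ 0)
    (h2 : ∀ m : M.M, (∑ i, μ i * ρ.s i) • m = 0) : (ρ.gq hA hB).Kill z := by
  refine ρ.kill_of hA hB (r := ∑ i, kill ρ.B (μ i) * X (ρ.y i)) ?_ fun f k => ?_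
  · simpa only [map_sum, map_mul, eval_kill, eval_X] using h1
  · rw [Finset.sum_smul, map_sum]
    cases k with
    | zero => exact Finset.sum_eq_zero fun i _ => by rw [mul_smul, co_kill, co_y_zero, smul_zero]
    | succ k =>
      rw [← h2 (ρ.co k f), Finset.sum_smul]
      exact Finset.sum_congr rfl fun i _ => by rw [mul_smul, mul_smul, co_kill, co_y_succ]
end RD

variable {W X P : Spc} {M : GM}

/-- Rees data of a section of a uniform bundle -/
def rdOf {E : Bun X} {s : E.ι → R} (hh : ∀ i, Hmg (E.deg i) (s i)) {δ : D} {b : ℕ}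
    {y : E.ι → Var} (h : PVar E δ b y) (hM : M.DegIn X.B) : RD M where
  B := X.B
  γ := b
  new := h.new
  deg := hM
  ι := E.ι
  s := s
  d := E.deg
  hs := hh
  y := y
  yinj := h.inj
  blk := h.blk
  δ := δ
  hδ := h.hδ
  hy := fun i => by rw [vdeg, h.blk, h.deg]; abel

theorem on_gq {E : Bun X} {s : E.ι → R} (h : Syz W X E s) {δ : D} {b : ℕ} {y : E.ι → Var}
    (hP : IsPSub P E δ b y) (hM : M.Red W) {A B : ℕ → Submodule R M.M} (hA : Sys M (sI s) A)
    (hB : Sys M (sI s) B) (hS : ∀ k, Sup X M (A k) (B k)) :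
    ((rdOf h.hmg hP.toPVar (h.sub.1 ▸ hM.deg)).gq hA hB).On P := by
  set ρ := rdOf h.hmg hP.toPVar (h.sub.1 ▸ hM.deg : M.DegIn X.B)
  refine ⟨hP.B ▸ degIn_sq ρ.degIn_rees, fun z hz hn => ?_⟩
  by_cases h4 : ∀ v, z v ≠ 0 → v.1 ∈ X.B ∨ v ∈ Set.range y
  swap
  · push Not at h4
    obtain ⟨v, hv, h1, h2⟩ := h4
    exact ρ.kill_X hA hB hv h1 h2
  have h3 : (fun i => z (y i)) ≠ 0 := by
    obtain ⟨v, hv, hv'⟩ := hz b (hP.B ▸ Finset.mem_insert_self _ _)
    obtain ⟨i, rfl⟩ := (h4 v hv').resolve_left (hv ▸ hP.new)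
    exact fun h0 => hv' (congrFun h0 i)
  by_cases h1 : restr X.B z ∈ X.pts
  swap
  · have hr : Rel X.B (restr X.B z) :=
      (rel_restr subset_rfl).2 fun c hc => hz c (hP.B ▸ Finset.mem_insert_of_mem hc)
    exact ρ.kill_sup hA hB fun k => hS k _ hr h1
  have h2 : (fun i => z (y i)) ∉ E.L (restr X.B z) := fun h2 => hn ((hP.mem z).2 ⟨h1, h2, h3, h4⟩)
  rw [← perp_perp (E.L _), mem_perp] at h2
  push Not at h2
  obtain ⟨a, ha, ha'⟩ := h2
  obtain ⟨μ, hμ, hμ'⟩ := h.syz _ h1 a ha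
  refine ρ.kill_syz hA hB μ ?_ (hM.ann _ hμ')
  change ∑ i, eval (restr X.B z) (μ i) * z (y i) ≠ 0
  simpa only [hμ, mul_comm] using ha'

theorem lam_root {E : Bun X} {δ : D} {b : ℕ} {y : E.ι → Var} (hP : IsPSub P E δ b y) {r : ℕ}
    (hr : E.Rk r) : (Lam E).eval₂ (Op.pull hP.proj) (lb P (δ - eB b)) = 0 := by
  have h := hP.chp_root hr
  rw [chp_eq hr, Polynomial.eval₂_mul, Polynomial.eval₂_C] at h
  have hu : IsUnit ((-1) ^ r * op X (E.det r hr).kl) :=
    (isUnit_one.neg.pow r).mul (isUnit_det hr)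
  exact (hu.map (Op.pull hP.proj)).mul_right_eq_zero.1 h

theorem Syz.tame_unif {E : Bun X} {s : E.ι → R} (h : Syz W X E s) {r : ℕ} (hr : E.Rk r) {δ : D}
    (hδ : δ ∈ DS X.B) (hu : E.Unif δ) (hM : M.Red W) {A B : ℕ → Submodule R M.M}
    (hA : Sys M (sI s) A) (hB : Sys M (sI s) B) (hS : ∀ k, Sup X M (A k) (B k)) :
    Tame (Lam E) (zs fun k => cq X M (A k) (B k)) := by
  obtain ⟨b, hb⟩ := Infinite.exists_notMem_finset X.B
  obtain ⟨y, hy⟩ := exists_pvar hδ hu hb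
  obtain ⟨P, hP⟩ := hy.exists_psub
  have hd : M.DegIn X.B := h.sub.1 ▸ hM.deg
  have hG := on_gq h hP hM hA hB hS
  set ρ := rdOf h.hmg hP.toPVar hd
  obtain ⟨k₁, hk₁⟩ := (isPush hP.proj).big _ hG
  have hbP : b ∈ P.B := hP.B ▸ Finset.mem_insert_self _ _
  have key : ∀ k : ℕ, k₁.toNat ≤ k → zs (fun k => cq X M (A k) (B k)) k =
      push P X (lb P (eB b - δ) ^ k • cl P (ρ.gq hA hB)) := by
    intro k hk
    have h1 : Big P X k₁ (k • eB b) := by
      refine ⟨by simp [eB], fun c hc => ?_, fun c hc hc' => ?_⟩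
      · have : c ≠ b := by
          rintro rfl
          exact hc.elim hb fun h => h hbP
        simp [eB, this.symm]
      · rw [hP.B, Finset.mem_insert] at hc
        obtain rfl := hc.resolve_right hc'
        simp only [eB, Finsupp.coe_smul, Pi.smul_apply, Finsupp.single_eq_same, nsmul_eq_mul,
          mul_one]
        omega
    have h2 := hk₁ _ h1
    have h3 := ρ.cl_piece hA hB X k (nsmul_mem hδ k)
    have h4 : k • ρ.τ + k • δ = k • eB b := by
      change k • (eB b - δ) + k • δ = _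
      rw [smul_sub, sub_add_cancel]
    rw [h4] at h3
    have h5 : (sq M (A k) (B k) (hA.stab k) (hB.stab k)).On X := on_sq hd (hS k)
    have h6 : lb P (eB b - δ) ^ k = Op.pull hP.proj (lb X (-(k • δ))) * lb P (k • eB b) := by
      rw [Op.pull_lb _ (neg_mem (nsmul_mem hδ k)), ← lb_add, ← lb_nsmul, smul_sub]
      congr 1; abel
    rw [zs_natCast, h6, mul_smul, push_smul, lb_smul (nsmul_mem (eB_mem hbP) k),
      sh_cl (nsmul_mem (eB_mem hbP) k) hG, h2]
    erw [h3]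
    rw [← sh_cl (nsmul_mem hδ k) h5, ← lb_smul (nsmul_mem hδ k), smul_smul, ← lb_add,
      neg_add_cancel, lb_zero, one_smul, cq_eq]
  refine tame_zs (k₀ := (k₁.toNat + (Lam E).natDegree : ℕ)) fun k hk => ?_
  obtain ⟨k, rfl⟩ := Int.eq_ofNat_of_zero_le ((Int.natCast_nonneg _).trans hk)
  rw [app_geom (Op.pull hP.proj) (push P X) (push_smul hP.proj) (Lam E) (lb P (eB b - δ))
    (lb P (δ - eB b)) (by rw [← lb_add, sub_add_sub_cancel, sub_self, lb_zero]) _ key
    (by exact_mod_cast hk), lam_root hP hr, mul_zero, zero_smul, map_zero]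

theorem Syz.tame {E : Bun X} {s : E.ι → R} (h : Syz W X E s) {r : ℕ} (hr : E.Rk r) (hM : M.Red W)
    {A B : ℕ → Submodule R M.M} (hA : Sys M (sI s) A) (hB : Sys M (sI s) B)
    (hS : ∀ k, Sup X M (A k) (B k)) : Tame (Lam E) (zs fun k => cq X M (A k) (B k)) := by
  obtain ⟨E', s', δ, hδ, hu, h', hk, hf, hle, hloc⟩ := h.exists_unif
  obtain ⟨A', B', hA', hB', hS', he⟩ := sys_change h.sub hM (gam_span h'.hmg) hle hloc hA hB hS
  have := h'.tame_unif (r := r) (fun x hx => (hf x hx).trans (hr x hx)) hδ hu hM hA' hB' hS'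
  simpa only [he, Lam_congr hk] using this

end Crest.Agent.N265.V
end
end

-- ▼ part N265/V/ActSq
section

/-! # Row 265, layer V, task V3: bundles act on subquotients -/

set_option autoImplicit false
noncomputable section
open MvPolynomial Module

namespace Crest.Agent.N265.V
open GM
variable {W Z : Spc} {M : GM}

/-- `N^ι` inside `⊕ M(deg i)` -/
def pis {ι : Type} [Fintype ι] (deg : ι → D) (M : GM) (N : Submodule R M.M) :
    Submodule R (GM.pw deg M).M := Submodule.pi Set.univ fun _ : ι => N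
lemma stab_pis {ι : Type} [Fintype ι] (deg : ι → D) {N : Submodule R M.M} (hN : M.Stab N) :
    (GM.pw deg M).Stab (pis deg M N) := fun _ hu i _ => N.smul_mem _ (hN _ (hu i trivial))
lemma ipw_pw {ι : Type} [Fintype ι] (deg : ι → D) (I : Ideal R) (M : GM) (k : ℕ) :
    ipw I (GM.pw deg M) k = pis deg M (ipw I M k) := by
  classical
  refine le_antisymm (Submodule.smul_le.2 fun r hr u _ i _ => smul_mem_ipw hr _) fun u hu => ?_
  rw [← Finset.univ_sum_single (show ι → M.M from u)]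
  exact sum_mem fun i _ => map_ipw_le (N := GM.pw deg M) (LinearMap.single R (fun _ => M.M) i) k
    ⟨_, hu i trivial, rfl⟩
lemma sup_pis {ι : Type} [Fintype ι] (deg : ι → D) {N P : Submodule R M.M} (h : Sup Z M N P)
    (S : Submodule R (GM.pw deg M).M) : Sup Z (GM.pw deg M) (S ⊓ pis deg M N) (S ⊓ pis deg M P) :=
  fun x h1 h2 => (h x h1 h2).imp fun r hr =>
    ⟨hr.1, fun _ ha => ⟨S.smul_mem r ha.1, fun i _ => hr.2 _ (ha.2 i trivial)⟩⟩
lemma deg0_compLeft {ι : Type} [Fintype ι] (deg : ι → D) {N : GM} {f : M.M →ₗ[R] N.M}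
    (hf : Deg0 f) : Deg0 (M := GM.pw deg M) (N := GM.pw deg N) (f.compLeft ι) :=
  fun u => funext fun i =>
    (f.map_smul (C (chi (-deg i)) : R) (M.g (u i))).trans (congrArg _ (hf (u i)))
/-- The case where `T = sq M N P` is a module over the reduced `Z`. Both the image of
`A.actSub M ⊓ N^ι` and `(A.pull _).actSub T` lie in `A.actSub T` and agree with it locally: for the
local projector `(r, Φ)` of `A.alg`, `r u = Φ u` on `A.actSub T` (`Bun.mat_act_eq_zero` for `Φ - r`)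
and `Bun.mat_mem_act`. Then `cl_loc`, `kl_smul`. -/
theorem act_sq_red (hZ : Z.Sub W) (A : Bun W) (hM : M.Red W) {N P : Submodule R M.M}
    (hN : M.Stab N) (hP : M.Stab P) (hPN : P ≤ N) (hS : ∀ r ∈ Z.I, ∀ a ∈ N, r • a ∈ P) :
    cq Z (GM.pw A.deg M) (A.actSub M ⊓ pis A.deg M N) (A.actSub M ⊓ pis A.deg M P) =
      (A.pull hZ.proj).kl • cq Z M N P := by
  have hd : M.DegIn Z.B := hZ.1 ▸ hM.deg
  have hA : ∀ i, A.deg i ∈ DS Z.B := (A.pull hZ.proj).hdeg
  set T := sq M N P hN hP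
  have hT : T.Red Z := ⟨degIn_sq hd, fun r hr m => by
    obtain ⟨a, rfl⟩ := mkq_surj (hA := hN) (hB := hP) m
    rw [← map_smul, mkq_eq_zero]
    exact hS r hr a a.2⟩
  have hTw := (hT.pw hA).on
  have hK : (M.sub N hN).Stab (P.comap N.subtype) := stab_comap (deg0_subtype hN) hP
  have hK' := stab_inf (A.stab_actSub (M.sub N hN)) (stab_pis A.deg hK)
  have e : ∀ y ∈ Z.pts, (A.pull hZ.proj).L y = A.L y := fun y hy =>
    congrArg A.L (W.restr_eq (hZ.2 hy))
  rw [cq_eq hN hP, kl_smul _ hT, Bun.act, ← cq_sub]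
  refine (cq_map (deg0_compLeft A.deg (deg0_subtype hN)) (A.stab_actSub _) hK'
    (stab_inf (A.stab_actSub M) (stab_pis _ hN)) (stab_inf (A.stab_actSub M) (stab_pis _ hP))
    (fun a ha => ⟨Bun.Act.lin (N := N) ha N.subtype, fun i _ => (a i).2⟩)
    (fun a ha => ⟨fun h => ⟨Bun.Act.lin (N := N) ha N.subtype, h.2⟩, fun h => ⟨ha, h.2⟩⟩)
    fun a ha => ⟨fun i => ⟨a i, ha.2 i trivial⟩, Bun.Act.of_inj (N' := M.M) (f := N.subtype)
      Subtype.val_injective ha.1,
      show a - a ∈ _ from (sub_self a).symm ▸ zero_mem _⟩).symm.trans ?_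
  refine (cq_loc (N := GM.pw A.deg T) (A' := A.actSub T) (B' := ⊥)
    (deg0_compLeft A.deg (M := M.sub N hN) (f := mkq hN hP) fun _ => rfl) (A.stab_actSub _) hK'
    (A.stab_actSub T) (stab_bot _) ((degIn_of_inj (deg0_subtype hN) Subtype.val_injective hd).pw hA)
    hTw.deg (fun x h1 h2 => ?_) (sup_of_on hTw _ _)
    (fun a ha => Bun.Act.lin (N := N) ha (mkq hN hP))
    (fun a _ h => funext fun i => mkq_eq_zero.2 (h.2 i trivial)) fun x hx => ?_).trans
    (cq_loc (f := LinearMap.id) (fun _ => rfl) ((A.pull hZ.proj).stab_actSub T) (stab_bot _)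
      (A.stab_actSub T) (stab_bot _) hTw.deg hTw.deg (sup_of_on hTw _ _) (sup_of_on hTw _ _)
      (fun a ha b hb => ha b fun y hy v hv => hb y (hZ.2 hy) v (e y hy ▸ hv)) (fun _ _ h => h)
      fun x hx => ?_).symm
  · by_contra hc
    refine h2 (Z.closed x h1 fun r hr => by_contra fun h0 => hc ⟨r, h0, fun a ha => ?_⟩)
    exact ⟨Submodule.smul_mem _ r ha, fun i _ => hS r hr _ (a i).2⟩
  · obtain ⟨r, Φ, hr, h1, h2⟩ := A.exists_proj (hZ.2 hx)
    refine ⟨r, hr, fun a ha h => Submodule.smul_mem _ r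
      ⟨ha, fun i _ => mkq_eq_zero.1 (congrFun h i)⟩, fun c hc => ?_⟩
    choose w hw using fun i => mkq_surj (hA := hN) (hB := hP) (c i)
    refine ⟨mv Φ w, A.act_mv (hM.sub hN).ann h1 w, sub_eq_zero.2 (funext fun i => ?_)⟩
    refine (map_mv (mkq hN hP) Φ w i).trans ?_
    rw [funext hw]
    exact congrFun (Bun.Act.mv_eq_smul (N := T.M) hc h2) i
  · obtain ⟨r, Φ, hr, h1, h2⟩ := A.exists_proj (hZ.2 hx)
    exact ⟨r, hr, fun a _ h => Submodule.smul_mem _ r h, fun c hc => ⟨mv (N := T.M) Φ c,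
      (A.pull hZ.proj).act_mv hT.ann (fun y hy v => e y hy ▸ h1 y (hZ.2 hy) v) c,
      sub_eq_zero.2 (Bun.Act.mv_eq_smul (N := T.M) hc h2)⟩⟩
/-- General case: filter `N` by `N j = Z.I^j N + P`; `N n / P` is irrelevant on `Z` for large `n`
(`GM.On.exists_pow` for `sq M N P`); `cq_add`, `cq_irr`, induction on `n`. -/
theorem act_sq (hZ : Z.Sub W) (A : Bun W) (hM : M.Red W) {N P : Submodule R M.M}
    (hN : M.Stab N) (hP : M.Stab P) (hPN : P ≤ N) (hS : Sup Z M N P) :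
    cq Z (GM.pw A.deg M) (A.actSub M ⊓ pis A.deg M N) (A.actSub M ⊓ pis A.deg M P) =
      (A.pull hZ.proj).kl • cq Z M N P := by
  have hd : M.DegIn Z.B := hZ.1 ▸ hM.deg
  obtain ⟨n, hn⟩ := (on_sq (hA := hN) (hB := hP) hd hS).exists_pow
  replace hn : ∀ x ∈ Z.pts, ∃ r : R, eval x r ≠ 0 ∧ ∀ m ∈ Z.I ^ n • N, r • m ∈ P := fun x hx =>
    (hn x hx).imp fun r hr => ⟨hr.1, fun m hm => Submodule.smul_induction_on hm
      (fun c hc b hb => by
        have := hr.2 _ (Submodule.smul_mem_smul hc (Submodule.mem_top (x := mkq hN hP ⟨b, hb⟩)))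
        rwa [← map_smul, ← map_smul, mkq_eq_zero] at this)
      fun a b ha hb => by rw [smul_add]; exact add_mem ha hb⟩
  induction n generalizing N with
  | zero =>
    simp only [pow_zero, one_smul] at hn
    rw [cq_irr hn, smul_zero]
    exact cq_irr fun x hx => (hn x hx).imp fun r hr => ⟨hr.1, fun a ha =>
      ⟨Submodule.smul_mem _ r ha.1, fun i _ => hr.2 _ (ha.2 i trivial)⟩⟩
  | succ n ih =>
    have hN' : M.Stab (Z.I • N ⊔ P) := stab_sup (stab_smul (fun _ => Z.gam_mem_I) hN) hP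
    have h1 : Z.I • N ⊔ P ≤ N := sup_le Submodule.smul_le_right hPN
    have st : ∀ {S}, M.Stab S → (GM.pw A.deg M).Stab (A.actSub M ⊓ pis A.deg M S) := fun h =>
      stab_inf (A.stab_actSub M) (stab_pis _ h)
    have mo : ∀ {S S'}, S ≤ S' → A.actSub M ⊓ pis A.deg M S ≤ A.actSub M ⊓ pis A.deg M S' :=
      fun h _ ha => ⟨ha.1, fun i _ => h (ha.2 i trivial)⟩
    rw [cq_add hN hN' hP h1 le_sup_right hd hS, smul_add, cq_add (st hN) (st hN') (st hP) (mo h1)
      (mo le_sup_right) (hd.pw (A.pull hZ.proj).hdeg) (sup_pis _ hS _),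
      act_sq_red hZ A hM hN hN' h1 fun r hr a ha =>
        Submodule.mem_sup_left (Submodule.smul_mem_smul hr ha),
      ih hN' le_sup_right (hS.mono h1 le_rfl) fun x hx => (hn x hx).imp fun r hr =>
        ⟨hr.1, fun m hm => ?_⟩]
    rw [Submodule.smul_sup, ← Submodule.mul_smul, ← pow_succ] at hm
    obtain ⟨a, ha, b, hb, rfl⟩ := Submodule.mem_sup.1 hm
    rw [smul_add]
    exact add_mem (hr.2 a ha) (P.smul_mem r (Submodule.smul_le_right hb))

end Crest.Agent.N265.V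
end
end

-- ▼ part N265/V/Jet
section

/-! # Row 265, layer V, task V4: vector fields at smooth points, leading forms, normal bundles -/

set_option autoImplicit false
noncomputable section
open MvPolynomial Module

namespace Crest.Agent.N265.V
open GM Bun
variable {W Z F : Spc}

lemma der_sum_apply {α : Type} (t : Finset α) (d : α → Derivation ℂ R R) (a : R) :
    (∑ i ∈ t, d i) a = ∑ i ∈ t, d i a := by
  have h := congrFun (map_sum (Derivation.coeFnAddMonoidHom (R := ℂ) (A := R) (M := R)) d t) a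
  rw [Finset.sum_apply] at h
  exact h
lemma der_mem_span (D : Derivation ℂ R R) {t : Set R} (h : ∀ a ∈ t, D a = 0) {a : R}
    (ha : a ∈ Ideal.span t) : D a ∈ Ideal.span t := by
  induction ha using Submodule.span_induction with
  | mem a ha => rw [h a ha]; exact zero_mem _
  | zero => rw [map_zero]; exact zero_mem _
  | add a b _ _ ha hb => rw [map_add]; exact add_mem ha hb
  | smul r a h1 ha =>
    rw [smul_eq_mul, D.leibniz, smul_eq_mul, smul_eq_mul]
    exact add_mem (Ideal.mul_mem_left _ _ ha) (Ideal.mul_mem_right _ _ h1)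
lemma iter_add (D : Derivation ℂ R R) (k : ℕ) (a b : R) :
    (D : R → R)^[k] (a + b) = (D : R → R)^[k] a + (D : R → R)^[k] b := by
  induction k generalizing a b with
  | zero => rfl
  | succ k ih => simp only [Function.iterate_succ_apply, map_add, ih]
lemma iter_mem_pow (D : Derivation ℂ R R) (I : Ideal R) (k : ℕ) {a : R} (ha : a ∈ I ^ (k + 1)) :
    (D : R → R)^[k] a ∈ I := by
  induction k generalizing a with
  | zero => simpa using ha
  | succ k ih => exact ih (CA.der_mem_pow D I _ ha)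

/-- A tangent vector at a smooth point extends to a vector field. `Jac.smAt_local_eqs` with
`J₀ = varI V` gives `y, η, r`; `Jac.exists_der` gives `f, d_j`; `D = f ∂_ξ - ∑ ∂_ξ(y_j) d_j`,
`J = varI V ⊔ span y`. -/
theorem exists_field {x ξ : Pt} (hx : x ∈ W.pts) (h : W.SmAt x) (hξ : ξ ∈ W.Tan x) :
    ∃ (D : Derivation ℂ R R) (J : Ideal R) (r : R), eval x r ≠ 0 ∧ J ≤ W.I ∧
      (∀ a ∈ W.I, r * a ∈ J) ∧ (∀ a ∈ J, D a ∈ J) ∧ ∀ a, eval x (D a) = dAt x ξ a := by
  obtain ⟨V, -, hV⟩ := W.fin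
  have hle : Jac.varI V ≤ W.I := Jac.varI_le fun v hv y hy => by rw [eval_X]; exact hV y hy v hv
  obtain ⟨c, y, η, h1, h2, h3, -, r, hr, h5⟩ := Jac.smAt_local_eqs (Jac.finJ_varI V) hle hx h
  obtain ⟨f, A, hf, hA⟩ := Jac.exists_der y η h3
  let δ : Pt → Derivation ℂ R R := fun ζ => mkDerivation ℂ fun v => (C (ζ v) : R)
  let d : Fin c → Derivation ℂ R R := fun i => ∑ k, A i k • δ (η k)
  let D : Derivation ℂ R R := f • δ ξ - ∑ j, δ ξ (y j) • d j
  have hD : ∀ a, D a = f * δ ξ a - ∑ j, δ ξ (y j) * d j a := fun a => by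
    simp only [D, Derivation.sub_apply, Derivation.smul_apply, smul_eq_mul, der_sum_apply]
  have hX : ∀ ζ ∈ TanI (Jac.varI V) x, ∀ v ∉ V, δ ζ (X v) = 0 := fun ζ hζ v hv => by
    have : ζ v = 0 := by simpa using hζ _ (Jac.X_mem_varI hv)
    simp [δ, this]
  refine ⟨D, _, r, hr, Jac.sup_span_le hle h1, h5, fun a ha => ?_, fun a => ?_⟩
  · rw [Jac.varI, ← Ideal.span_union] at ha ⊢
    refine der_mem_span D ?_ ha
    rintro _ (⟨v, hv, rfl⟩ | ⟨i, rfl⟩)
    · have h6 : ∀ j, d j (X v) = 0 := fun j => by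
        simp only [d, der_sum_apply, Derivation.smul_apply, hX _ (h2 _) v hv, smul_zero,
          Finset.sum_const_zero]
      simp only [hD, hX ξ (Jac.TanI_anti hle x hξ) v hv, h6, mul_zero, Finset.sum_const_zero,
        sub_zero]
    · have h6 : ∀ j, d j (y i) = if j = i then f else 0 := fun j => hA j i
      simp only [hD, h6, mul_ite, mul_zero, Finset.sum_ite_eq', Finset.mem_univ, if_true]
      ring
  · have h6 : ∀ j, eval x (δ ξ (y j)) = 0 := fun j => hξ _ (h1 j)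
    simp only [hD, map_sub, map_mul, map_sum, hf, h6, one_mul, zero_mul, Finset.sum_const_zero,
      sub_zero]
    rfl
/-- `D^k (F(s)) ≡ k! F(D s)` modulo `(s)` (`CA.der_eval`, Euler's identity, induction on `k`) -/
theorem der_iter {ι : Type} [Fintype ι] (D : Derivation ℂ R R) (s : ι → R) (k : ℕ)
    (P : MvPolynomial ι R) (hP : P.IsHomogeneous k) :
    (D : R → R)^[k] (eval s P) - (k.factorial : R) * eval (fun i => D (s i)) P ∈ sI s := by
  classical
  induction k generalizing P with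
  | zero =>
    rw [totalDegree_eq_zero_iff_eq_C.1 (Nat.le_zero.1 hP.totalDegree_le)]
    simp
  | succ k ih =>
    let Q : MvPolynomial ι R := ∑ j, C (D (s j)) * pderiv j P
    have hQ : Q.IsHomogeneous k := IsHomogeneous.sum _ _ _ fun j _ =>
      IsHomogeneous.C_mul (by simpa using hP.pderiv) _
    have h1 : D (eval s P) = eval s (CA.derCoeff D P) + eval s Q := by
      rw [CA.der_eval]
      simp only [Q, map_sum, map_mul, eval_C, mul_comm]
    have h2 : eval (fun i => D (s i)) Q = ((k : R) + 1) * eval (fun i => D (s i)) P := by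
      have := congrArg (eval fun i => D (s i)) hP.sum_X_mul_pderiv
      simp only [map_sum, map_mul, eval_X, nsmul_eq_mul, map_natCast] at this
      simp only [Q, map_sum, map_mul, eval_C, this]
      push_cast
      rfl
    have h3 := ih Q hQ
    have h4 := iter_mem_pow D (sI s) k
      (CA.eval_mem_pow (mem_sI s) (CA.derCoeff_isHomogeneous D hP))
    rw [Function.iterate_succ_apply, h1, iter_add]
    convert add_mem h4 h3 using 1
    rw [h2, Nat.factorial_succ]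
    push_cast
    ring
/-- the leading form of a relation vanishes on the image of the tangent space -/
theorem jet {x ξ : Pt} (hx : x ∈ W.pts) (h : W.SmAt x) (hξ : ξ ∈ W.Tan x) {ι : Type} [Fintype ι]
    (s : ι → R) (h0 : ∀ i, eval x (s i) = 0) {k : ℕ} (c : Mon ι k → R)
    (hc : ∑ α, c α * ∏ i, s i ^ α.1 i ∈ sI s ^ (k + 1) ⊔ W.I) :
    polEv (fun α => eval x (c α)) (dS x s ξ) = 0 := by
  obtain ⟨D, J, r, hr, hJ, h1, h2, h3⟩ := exists_field hx h hξ
  let P : MvPolynomial ι R := ∑ α : Mon ι k, monomial α.1 (r * c α)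
  have hP : P.IsHomogeneous k := IsHomogeneous.sum _ _ _ fun α _ => isHomogeneous_monomial _ α.2
  have hev : ∀ t : ι → R, eval t P = r * ∑ α, c α * ∏ i, t i ^ α.1 i := fun t => by
    simp only [P, map_sum, eval_monomial, Finset.mul_sum, mul_assoc,
      Finsupp.prod_fintype _ _ fun i => pow_zero (t i)]
  have hs : sI s ≤ mx x := Ideal.span_le.2 (by rintro _ ⟨i, rfl⟩; exact h0 i)
  obtain ⟨a, ha, b, hb, hab⟩ := Submodule.mem_sup.1 hc
  have h4 : ∀ (m : ℕ) (a : R), a ∈ J → (D : R → R)^[m] a ∈ J := fun m => by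
    induction m with
    | zero => exact fun _ ha => ha
    | succ m ih => exact fun a ha => ih _ (h2 a ha)
  have h5 : (D : R → R)^[k] (eval s P) ∈ mx x := by
    rw [hev, ← hab, mul_add, iter_add]
    exact add_mem (hs (iter_mem_pow D _ k (Ideal.mul_mem_left _ _ ha)))
      (Jac.I_le_mx hx (hJ (h4 k _ (h1 b hb))))
  have h6 := mem_mx.1 (hs (der_iter D s k P hP))
  rw [map_sub, mem_mx.1 h5, zero_sub, neg_eq_zero, hev, map_mul, map_mul, map_natCast] at h6
  have h7 := ((mul_eq_zero.1 ((mul_eq_zero.1 h6).resolve_left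
    (Nat.cast_ne_zero.2 k.factorial_ne_zero))).resolve_left hr)
  simpa only [map_sum, map_mul, map_prod, map_pow, h3, polEv, dS_apply] using h7

variable {ι : Type} {s : ι → R}
lemma Reg.mem_I (h : Reg W Z s) (i : ι) : s i ∈ Z.I :=
  fun x hx => (h.zero x (h.sub.2 hx)).1 hx i
lemma finrank_map_tan (W : Spc) (z : Pt) {U : Type} [AddCommGroup U] [Module ℂ U]
    (φ : Pt →ₗ[ℂ] U) : finrank ℂ ((W.Tan z).map φ) +
      finrank ℂ (W.Tan z ⊓ LinearMap.ker φ : Submodule ℂ Pt) = finrank ℂ (W.Tan z) := by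
  have : Module.Finite ℂ (W.Tan z) := (Jac.finJ_I W).finite_tan z
  have h := (φ ∘ₗ (W.Tan z).subtype).finrank_range_add_finrank_ker
  rw [LinearMap.range_comp, Submodule.range_subtype, LinearMap.ker_comp] at h
  rw [← h, ← Submodule.finrank_map_subtype_eq (W.Tan z) (Submodule.comap _ _),
    Submodule.map_comap_subtype]
/-- Jacobian criterion (`Jac.exists_dual_ideal` for `W.I`, `sI s`; `Jac.reg_at`) -/
theorem Reg.eqs [Fintype ι] (h : Reg W Z s) {z : Pt} (hz : z ∈ Z.pts) :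
    Z.SmAt z ∧ Z.Tan z = W.Tan z ⊓ LinearMap.ker (dS z s) ∧
      ∃ (y : Fin (finrank ℂ ((W.Tan z).map (dS z s))) → R) (ρ : R), (∀ j, y j ∈ sI s) ∧
        eval z ρ ≠ 0 ∧ ∀ a ∈ Z.I, ρ * a ∈ W.I ⊔ sI y := by
  have hsZ : sI s ≤ Z.I := Ideal.span_le.2 (by rintro _ ⟨i, rfl⟩; exact h.mem_I i)
  obtain ⟨c, y, ξ, h1, -, -, h4, h5⟩ := Jac.exists_dual_ideal (Jac.finJ_I W) (sI s) z
  have e1 : TanI (W.I ⊔ sI s) z = W.Tan z ⊓ LinearMap.ker (dS z s) := by
    ext η
    exact (Jac.mem_TanI_sup_span fun i => h.mem_I i z hz).trans (and_congr_right' mem_ker_dS.symm)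
  have e2 : TanI (W.I ⊔ sI y) z = W.Tan z ⊓ LinearMap.ker (dS z s) := by
    rw [← e1]
    refine le_antisymm (fun η hη => ?_) (Jac.TanI_anti (sup_le_sup_left
      (Ideal.span_le.2 (by rintro _ ⟨j, rfl⟩; exact h1 j)) _) z)
    obtain ⟨h6, h7⟩ := (Jac.mem_TanI_sup_span fun j => hsZ (h1 j) z hz).1 hη
    rw [Jac.TanI_sup]
    refine ⟨h6, fun a ha => ?_⟩
    obtain ⟨co, hco⟩ := h4 a ha
    rw [hco η h6]
    simp [h7]
  obtain ⟨h6, -, -, ⟨ρ, h7, h8⟩, h9⟩ := Jac.reg_at ((Jac.finJ_I W).mono le_sup_left)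
    (Jac.sup_span_le h.sub.I_le fun j => hsZ (h1 j)) (Jac.I_le_mx hz)
    (by erw [e2]; exact h.tan z hz)
  have hc : c = finrank ℂ ((W.Tan z).map (dS z s)) := by
    have := finrank_map_tan W z (dS z s)
    rw [e1] at h5
    change _ + c = finrank ℂ (W.Tan z) at h5
    omega
  subst hc
  refine ⟨?_, h9.trans e2, y, ρ, h1, h7, h8⟩
  change (finrank ℂ (TanI Z.I z) : ℕ∞) ≤ Jac.hq Z.I (mx z)
  rw [h9, h6]
lemma dAt_gpt (x ξ : Pt) (r : R) : dAt (gpt x) (gpt ξ) r = dAt x ξ (gam r) := by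
  induction r using MvPolynomial.induction_on with
  | C c => simp
  | add p q hp hq => simp only [dAt_add, map_add, hp, hq]
  | mul_X p v hp =>
    simp only [map_mul, dAt_mul, hp, gam_X, dAt_X, dAt_C, eval_X, eval_C, eval_gam, gpt]
    ring
lemma gpt_mem_tan {x ξ : Pt} : gpt ξ ∈ W.Tan (gpt x) ↔ ξ ∈ W.Tan x := by
  refine ⟨fun h r hr => ?_, fun h r hr => by rw [dAt_gpt]; exact h _ (Spc.gam_mem_I hr)⟩
  obtain ⟨r, rfl⟩ := gam_surj r
  rw [← dAt_gpt]
  exact h r (mem_of_gam_mem (fun _ => Spc.gam_mem_I) hr)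
lemma eval_der (D : Derivation ℂ R R) (y : Pt) (a : R) :
    eval y (D a) = dAt y (fun v => eval y (D (X v))) a := by
  induction a using MvPolynomial.induction_on with
  | C c => simp [← algebraMap_eq]
  | add p q hp hq => simp only [dAt_add, map_add, hp, hq]
  | mul_X p v hp => simp only [D.leibniz, smul_eq_mul, map_add, map_mul, dAt_mul, hp, dAt_X]
/-- `Gen` from `exists_field` (the section `r · D (s i)`), rank from `Jac.smAt_near` for `W`, `Z` -/
theorem Reg.isAlg [Fintype ι] (h : Reg W Z s) : IsAlg Z fun z => (W.Tan z).map (dS z s) := by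
  refine Gen.isAlg (gen_of_local ?_) fun z hz => ?_
  · rintro z hz _ ⟨ξ, hξ, rfl⟩
    obtain ⟨D, J, r, hr, hJ, h1, h2, h3⟩ := exists_field (h.sub.2 hz) (h.sm z hz) hξ
    refine ⟨r, fun i => D (s i), hr, funext fun i => h3 _, fun y hy hry =>
      ⟨fun v => eval y (D (X v)), fun a ha => ?_, funext fun i => (eval_der D y _).symm⟩⟩
    have h4 := hJ (h2 _ (h1 a ha)) y (h.sub.2 hy)
    rw [D.leibniz, smul_eq_mul, smul_eq_mul, map_add, map_mul, map_mul, ha y (h.sub.2 hy),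
      zero_mul, add_zero] at h4
    rw [← eval_der]
    exact (mul_eq_zero.1 h4).resolve_left hry
  · obtain ⟨g, hg, h1⟩ := Jac.smAt_near (h.sub.2 hz) (h.sm z hz)
    obtain ⟨g', hg', h2⟩ := Jac.smAt_near hz (h.eqs hz).1
    refine ⟨g * g', by rw [map_mul]; exact mul_ne_zero hg hg', fun y hy hgy => ?_⟩
    rw [map_mul] at hgy
    have h3 := (h1 y (h.sub.2 hy) (left_ne_zero_of_mul hgy)).2
    have h4 := (h2 y hy (right_ne_zero_of_mul hgy)).2
    have h5 := finrank_map_tan W z (dS z s)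
    have h6 := finrank_map_tan W y (dS y s)
    rw [← (h.eqs hz).2.1] at h5
    rw [← (h.eqs hy).2.1] at h6
    beta_reduce
    omega
theorem Reg.isEqv (h : Reg W Z s) {deg : ι → D} (hh : ∀ i, Hmg (deg i) (s i)) :
    IsEqv Z deg fun z => (W.Tan z).map (dS z s) := by
  have _ := h
  have key : ∀ z ξ, dS (gpt z) s (gpt ξ) = gd deg (dS z s ξ) := fun z ξ => funext fun i => by
    rw [dS_apply, dAt_gpt, hh i, Jac.dAt_C_mul]; rfl
  refine isEqv_iff'.2 fun z _ v => ⟨?_, ?_⟩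
  · rintro ⟨ξ, hξ, rfl⟩
    exact ⟨gpt ξ, gpt_mem_tan.2 hξ, key z ξ⟩
  · rintro ⟨ξ, hξ, e⟩
    obtain ⟨ξ, rfl⟩ := gpt_surj ξ
    exact ⟨ξ, gpt_mem_tan.1 hξ, (gd deg).injective ((key z ξ).symm.trans e)⟩
/-- the normal bundle inside the ambient bundle of `E` -/
def Reg.nor {E : Bun Z} {s : E.ι → R} (h : Reg W Z s) (hh : ∀ i, Hmg (E.deg i) (s i)) : Bun Z :=
  E.re (fun z => (W.Tan z).map (dS z s)) (h.isEqv hh) h.isAlg

lemma map_comap_extV {V : Finset Var} (hV : W.Vars V) (x : Pt) :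
    ((W.Tan x).comap (extV V)).map (extV V) = W.Tan x :=
  Submodule.map_comap_eq_of_le fun ξ hξ => ⟨_, Jac.ext0_restrict fun v hv => by
    simpa using hξ (X v) fun y hy => by rw [eval_X]; exact hV.2 y hy v hv⟩
lemma finrank_comap_extV {V : Finset Var} (hV : W.Vars V) (x : Pt) :
    finrank ℂ ((W.Tan x).comap (extV V)) = finrank ℂ (W.Tan x) := by
  conv_rhs => rw [← map_comap_extV hV x]
  exact (Submodule.equivMapOfInjective (extV V) (Jac.ext0_inj V) _).finrank_eq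
lemma mev_jac' (V : Finset Var) (s : ι → R) (x : Pt) : mev x (jac V s) = dS x s ∘ₗ extV V :=
  LinearMap.ext fun u => funext fun i => mev_jac V s x u i

/-- the tangent bundle of `W` along a subspace of smooth points (`Cogen.isAlg`, `Jac.smAt_near`) -/
def tanOn (W F : Spc) (V : Finset Var) (hF : F.Sub W) (hV : W.Vars V)
    (hs : ∀ z ∈ F.pts, W.SmAt z) : Bun F where
  ι := V
  deg := fun v => vdeg v.1
  hdeg := fun v => vdeg_mem (hF.1 ▸ hV.1 v.1 v.2)
  L := fun x => (W.Tan x).comap (extV V)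
  eqv := fun x _ u => by
    have : extV V (fun v : V => chi (vdeg v.1) * u v) = gpt (extV V u) := funext fun v => by
      by_cases h : v ∈ V <;> simp [extV, gpt, h]
    rw [Submodule.mem_comap, Submodule.mem_comap, this, gpt_mem_tan]
  alg := by
    refine Cogen.isAlg ((Cogen.iInf fun a : W.I => (isAlg_const (X := F) ⊥).cogen.comap
      (jac V fun _ : Unit => a.1)).congr fun x _ => ?_) fun z hz => ?_
    · ext u
      simp only [Submodule.mem_iInf, Submodule.mem_comap, Submodule.mem_bot, funext_iff, mev_jac,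
        Pi.zero_apply, forall_const, Subtype.forall]
      rfl
    · obtain ⟨g, hg, h1⟩ := Jac.smAt_near (hF.2 hz) (hs z hz)
      refine ⟨g, hg, fun y hy hgy => ?_⟩
      simp only [finrank_comap_extV hV, (h1 y (hF.2 hy) hgy).2, le_refl]
lemma vars_sub {V : Finset Var} (hV : W.Vars V) (hF : F.Sub W) : F.Vars V :=
  ⟨fun v hv => hF.1 ▸ hV.1 v hv, fun x hx => hV.2 x (hF.2 hx)⟩
lemma kl_tanOn {V : Finset Var} (hF : F.Sub W) (hV : W.Vars V) {n : ℕ} (hW : W.Sm n) (hs) :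
    (tanOn W F V hF hV hs).kl = ((Bun.tan W V hV n hW).pull hF.proj).kl :=
  kl_iso (1 : Matrix V V R) (MHmg.one _) fun x hx => ⟨B0.one_inf _ x, (B0.one_map _ x).trans (by
    change _ = (W.Tan (restr W.B x)).comap (extV V)
    rw [W.restr_eq (hF.2 hx)]; rfl)⟩
lemma kl_tanOn_of_eq {V : Finset Var} (hF : F.Sub W) (hV : W.Vars V) {m : ℕ} (hm : F.Sm m) (hs)
    (h : ∀ z ∈ F.pts, F.Tan z = W.Tan z) :
    (tanOn W F V hF hV hs).kl = (Bun.tan F V (vars_sub hV hF) m hm).kl :=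
  kl_iso (1 : Matrix V V R) (MHmg.one _) fun x hx => ⟨B0.one_inf _ x, (B0.one_map _ x).trans (by
    change _ = (F.Tan x).comap (extV V)
    rw [h x hx]; rfl)⟩
/-- the normal bundle sequence (matrices `1` and `jac V s`) -/
theorem Reg.kl_nor {E : Bun Z} {s : E.ι → R} (h : Reg W Z s) (hh : ∀ i, Hmg (E.deg i) (s i))
    {V : Finset Var} (hV : W.Vars V) (hF : F.Sub Z) (hs hs') :
    (tanOn W F V (hF.trans h.sub) hV hs).kl =
      (tanOn Z F V hF (vars_sub hV h.sub) hs').kl + ((h.nor hh).pull hF.proj).kl := by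
  refine kl_ses ⟨(1 : Matrix V V R), jac V s, MHmg.one _, mhmg_jac V hh, fun x hx =>
    ⟨B0.one_inf _ x, (B0.one_map _ x).trans ?_, ?_⟩⟩
  · change (Z.Tan x).comap (extV V) =
      (W.Tan x).comap (extV V) ⊓ LinearMap.ker (mev x (jac V s))
    rw [(h.eqs (hF.2 hx)).2.1, mev_jac', LinearMap.ker_comp, Submodule.comap_inf]
  · change ((W.Tan x).comap (extV V)).map (mev x (jac V s)) =
      (W.Tan (restr Z.B x)).map (dS (restr Z.B x) s)
    rw [Z.restr_eq (hF.2 hx), mev_jac', Submodule.map_comp, map_comap_extV hV]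
/-- the excess bundle -/
theorem Reg.exists_excess {E : Bun Z} {s : E.ι → R} (h : Reg W Z s) (hh : ∀ i, Hmg (E.deg i) (s i))
    (hE : ∀ z ∈ Z.pts, ∀ ξ ∈ W.Tan z, dS z s ξ ∈ E.L z) :
    ∃ C : Bun Z, E.kl = (h.nor hh).kl + C.kl := by
  obtain ⟨C, p, hp, h1⟩ := exists_quot (h.nor hh) E (1 : Matrix E.ι E.ι R) (MHmg.one _)
    fun x hx => ⟨B0.one_inf _ x, (B0.one_map _ x).le.trans (by
      rintro _ ⟨ξ, hξ, rfl⟩; exact hE x hx ξ hξ)⟩
  exact ⟨C, kl_ses ⟨(1 : Matrix E.ι E.ι R), p, MHmg.one _, hp, fun x hx =>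
    ⟨B0.one_inf _ x, h1 x hx⟩⟩⟩

end Crest.Agent.N265.V
end
end

-- ▼ part N265/V/Smooth
section

/-! # Row 265, layer V, task V5: `I^k / I^(k+1) = Sym^k N^∨` for a smooth pair -/

set_option autoImplicit false
noncomputable section
open MvPolynomial Module

namespace Crest.Agent.N265.V
open GM Bun
variable {W Z : Spc}

/-- every element of `I^k` is a form of degree `k` in the generators -/
lemma mem_pow_iff {ι : Type} [Fintype ι] (s : ι → R) (k : ℕ) {a : R} :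
    a ∈ sI s ^ k ↔ ∃ c : Mon ι k → R, a = ∑ α, c α * ∏ i, s i ^ α.1 i := by
  have key : ∀ c : Mon ι k → R, eval s (∑ α : Mon ι k, C (c α) * monomial α.1 1) =
      ∑ α, c α * ∏ i, s i ^ α.1 i := fun c => by
    simp [eval_monomial, Finsupp.prod_fintype]
  rw [sI, Ideal.mem_span_pow_iff_exists_isHomogeneous]
  constructor
  · rintro ⟨p, hp, rfl⟩
    exact ⟨fun α => coeff α.1 p, by rw [← key, Pol.sum_coeff_eq hp]⟩
  · rintro ⟨c, rfl⟩
    exact ⟨_, IsHomogeneous.sum _ _ _ fun α _ => (isHomogeneous_monomial _ α.2).C_mul _, key c⟩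

lemma eval_form {ι : Type} [Fintype ι] (s : ι → R) {k : ℕ} (c : Mon ι k → R) (x : Pt) :
    eval x (∑ α, c α * ∏ i, s i ^ α.1 i) =
      polEv (fun α => eval x (c α)) fun i => eval x (s i) := by
  simp [polEv]

lemma mon_mem_pow {ι : Type} [Fintype ι] {y : ι → R} {I : Ideal R} (hy : ∀ j, y j ∈ I) {k : ℕ}
    (β : Mon ι k) : ∏ j, y j ^ β.1 j ∈ I ^ k := by
  have := Ideal.prod_mem_prod (s := Finset.univ) fun j _ => Ideal.pow_mem_pow (hy j) (β.1 j)
  rwa [Finset.prod_pow_eq_pow_sum, β.sum_eq] at this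

/-- Converse of `jet`, locally. With `y, ρ` from `Reg.eqs`: `ρ s ≡ H y mod W.I`; at `z' ∈ Z` near
`z`, `ρ ds = H dy`, and the rank of `N` is locally constant (`Reg.isAlg`, `IsAlg.lc`), so
`N z' = range (H z')`; the coefficients `c'` of `y ↦ c (H y)` (`exists_subst`) vanish on `Z` near
`z` (`polEv_inj`), hence lie locally in `W.I ⊔ sI s`. -/
theorem Reg.mem_of_van {ι : Type} [Fintype ι] {s : ι → R} (h : Reg W Z s) {z : Pt} (hz : z ∈ Z.pts)
    (k : ℕ) : ∃ r : R, eval z r ≠ 0 ∧ ∀ c : Mon ι k → R,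
      (∀ x ∈ Z.pts, ∀ ξ ∈ W.Tan x, polEv (fun α => eval x (c α)) (dS x s ξ) = 0) →
        r * ∑ α, c α * ∏ i, s i ^ α.1 i ∈ sI s ^ (k + 1) ⊔ W.I := by
  obtain ⟨-, -, y, ρ, hy, hρ, hI⟩ := h.eqs hz
  obtain ⟨r₁, hr₁, hlc⟩ := h.isAlg.lc z hz
  have hH : ∀ i, ∃ H : Fin _ → R, ρ * s i - ∑ j, H j * y j ∈ W.I := fun i => by
    obtain ⟨w, hw, b, hb, e⟩ := Submodule.mem_sup.1 (hI _ (h.mem_I i))
    obtain ⟨H, rfl⟩ := Ideal.mem_span_range_iff_exists_fun.1 hb
    exact ⟨H, by rw [← e, add_sub_cancel_right]; exact hw⟩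
  choose H hH using hH
  obtain ⟨S, hS, -⟩ := exists_subst k (Matrix.of H)
  have hsZ : sI s ≤ Z.I := Ideal.span_le.2 (by rintro _ ⟨i, rfl⟩; exact h.mem_I i)
  have hle : sI y ≤ sI s := Ideal.span_le.2 (by rintro _ ⟨j, rfl⟩; exact hy j)
  have hrange : ∀ x ∈ Z.pts, eval x ρ ≠ 0 → eval x r₁ ≠ 0 →
      (W.Tan x).map (dS x s) = LinearMap.range (mev x (Matrix.of H)) := by
    intro x hx h1 h2
    refine Submodule.eq_of_le_of_finrank_le ?_ ?_
    · rintro _ ⟨ξ, hξ, rfl⟩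
      refine ⟨(eval x ρ)⁻¹ • dS x y ξ, funext fun i => ?_⟩
      have h3 := hξ _ (hH i)
      rw [Jac.dAt_sub, dAt_mul, h.mem_I i x hx, zero_mul, add_zero, Jac.dAt_sum, sub_eq_zero] at h3
      rw [map_smul, Pi.smul_apply, mev_apply, smul_eq_mul, inv_mul_eq_iff_eq_mul₀ h1, dS_apply, h3]
      refine Finset.sum_congr rfl fun j _ => ?_
      rw [dAt_mul, hsZ (hy j) x hx, zero_mul, add_zero]
      rfl
    · refine (LinearMap.finrank_range_le _).trans ?_
      rw [Module.finrank_fin_fun]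
      exact (hlc x hx h2).ge
  refine ⟨ρ * (ρ * r₁) * ρ ^ k, by simp [hρ, hr₁], fun c hc => ?_⟩
  have hc' : ∀ x, (fun β => eval x (∑ α, S β α * c α)) = mev x S fun α => eval x (c α) :=
    fun x => funext fun β => by rw [mev_apply]; simp
  have h1 : ∀ β, ρ * r₁ * ∑ α, S β α * c α ∈ Z.I := fun β x hx => by
    rw [map_mul, map_mul]
    by_cases e1 : eval x ρ = 0
    · rw [e1, zero_mul, zero_mul]
    by_cases e2 : eval x r₁ = 0
    · rw [e2, mul_zero, zero_mul]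
    have : mev x S (fun α => eval x (c α)) = 0 := polEv_inj fun v => by
      rw [hS]
      have : mev x (Matrix.of H) v ∈ (W.Tan x).map (dS x s) := by
        rw [hrange x hx e1 e2]; exact ⟨v, rfl⟩
      obtain ⟨ξ, hξ, e⟩ := this
      rw [← e]
      exact hc x hx ξ hξ
    rw [congrFun ((hc' x).trans this) β, Pi.zero_apply, mul_zero]
  have h2 : ρ ^ k * (∑ α, c α * ∏ i, s i ^ α.1 i) -
      ∑ β, (∑ α, S β α * c α) * ∏ j, y j ^ β.1 j ∈ W.I := fun x hx => by
    rw [map_sub, map_mul, eval_form, eval_form, hc', hS, map_pow, ← polEv_smul, sub_eq_zero]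
    congr 1
    funext i
    have h3 := hH i x hx
    rw [map_sub, sub_eq_zero, map_mul, map_sum] at h3
    rw [Pi.smul_apply, smul_eq_mul, h3, mev_apply]
    exact Finset.sum_congr rfl fun j _ => map_mul _ _ _
  have e : ρ * (ρ * r₁) * ρ ^ k * ∑ α, c α * ∏ i, s i ^ α.1 i =
      ρ * (ρ * r₁) * (ρ ^ k * (∑ α, c α * ∏ i, s i ^ α.1 i) -
        ∑ β, (∑ α, S β α * c α) * ∏ j, y j ^ β.1 j) +
      ∑ β, ρ * (ρ * r₁ * ∑ α, S β α * c α) * ∏ j, y j ^ β.1 j := by
    rw [mul_sub, Finset.mul_sum _ _ (ρ * (ρ * r₁))]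
    simp only [mul_assoc]
    ring
  rw [e]
  refine add_mem (Ideal.mem_sup_right (Ideal.mul_mem_left _ _ h2)) (sum_mem fun β _ => ?_)
  obtain ⟨w, hw, b, hb, e'⟩ := Submodule.mem_sup.1 (hI _ (h1 β))
  rw [← e', add_mul]
  refine add_mem (Ideal.mem_sup_right (Ideal.mul_mem_right _ _ hw)) (Ideal.mem_sup_left ?_)
  rw [pow_succ']
  exact Ideal.mul_mem_mul (hle hb) (mon_mem_pow hy β)

lemma mk_mem_ipw {I : Ideal R} {k : ℕ} {a : R} :
    ((Ideal.Quotient.mk W.I a : R ⧸ W.I) : (O W).M) ∈ ipw I (O W) k ↔ a ∈ I ^ k ⊔ W.I := by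
  rw [← Ideal.mem_quotient_iff_mem_sup]
  exact (SetLike.ext_iff.1 (Ideal.smul_top_eq_map (S := R ⧸ W.I) (I ^ k)) _)

lemma exists_rep {ι : Type} (W : Spc) (a : ι → R ⧸ W.I) :
    ∃ c : ι → R, a = fun i => Ideal.Quotient.mk W.I (c i) := by
  choose c hc using fun i => Ideal.Quotient.mk_surjective (a i)
  exact ⟨c, funext fun i => (hc i).symm⟩

set_option backward.isDefEq.respectTransparency false in
/-- `T = pw (monDeg) (O W) → I^k O_W`, `c ↦ ∑ c_α s^α`, is onto; the preimage `K₁` of `I^(k+1) O_W`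
lies in `K₂ = {c | (N.van k).IsSec c}` (`jet`) and agrees with it locally (`mem_of_van`);
`T / K₂ = pw (O Z) / (N.van k).actSub (O Z)` (`Bun.mem_act_O`); `cq_map`, `cq_loc`, `cq_add`,
`kl_smul`. -/
theorem Reg.gr {N : Bun Z} {s : N.ι → R} (h : Reg W Z s) (hh : ∀ i, Hmg (N.deg i) (s i))
    (hN : ∀ z ∈ Z.pts, N.L z = (W.Tan z).map (dS z s)) (k : ℕ) :
    cq Z (O W) (ipw (sI s) (O W) k) (ipw (sI s) (O W) (k + 1)) = Sd N k • one Z := by
  let T : GM := pw (monDeg N.deg k) (O W)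
  let T' : GM := pw (monDeg N.deg k) (O Z)
  let f : T.M →ₗ[R] (O W).M :=
    ∑ α : Mon N.ι k, (∏ i, s i ^ α.1 i) • (LinearMap.proj α : (Mon N.ι k → (O W).M) →ₗ[R] (O W).M)
  have hf1 : ∀ a : T.M, f a = ∑ α : Mon N.ι k, (∏ i, s i ^ α.1 i) • (a : Mon N.ι k → (O W).M) α :=
    fun a => LinearMap.sum_apply _ _ _
  have hf2 : ∀ c : Mon N.ι k → R, f (fun α => Ideal.Quotient.mk W.I (c α)) =
      Ideal.Quotient.mk W.I (∑ α, c α * ∏ i, s i ^ α.1 i) := fun c => by
    rw [hf1, map_sum]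
    exact Finset.sum_congr rfl fun α _ => congrArg (Ideal.Quotient.mk W.I) (mul_comm _ _)
  have hf : Deg0 f := fun a => by
    rw [hf1, hf1, map_sum]
    refine Finset.sum_congr rfl fun α _ => ?_
    have h1 : Hmg (-monDeg N.deg k α) (∏ i, s i ^ α.1 i) := by
      rw [monDeg, neg_neg]
      exact Hmg.prod _ fun i _ => (hh i).pow _
    rw [LinearMap.map_smulₛₗ, h1, mul_comm, mul_smul]
    rfl
  have hWZ : W.I ≤ Z.I := fun r hr x hx => hr x (h.sub.2 hx)
  let q : (O W).M →ₗ[R] (O Z).M := Submodule.factor hWZ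
  let p : T.M →ₗ[R] T'.M := q.compLeft _
  have hp2 : ∀ c : Mon N.ι k → R, p (fun α => Ideal.Quotient.mk W.I (c α)) =
      fun α => Ideal.Quotient.mk Z.I (c α) := fun _ => rfl
  have hq : Deg0 q := fun a => by
    obtain ⟨r, rfl⟩ := Ideal.Quotient.mk_surjective (I := W.I) a
    rfl
  have hp : Deg0 p := fun a => funext fun α =>
    (q.map_smul (C (chi (-monDeg N.deg k α)) : R) ((O W).g (a α))).trans (congrArg _ (hq (a α)))
  have hI := gam_span hh
  have hK : T.Stab ((ipw (sI s) (O W) (k + 1)).comap f) := stab_comap hf (stab_ipw hI _ _)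
  have hT : T.On W := (red_O W).on.pw (h.sub.1 ▸ (N.van k).hdeg)
  have hT' : T'.On Z := (red_O Z).on.pw (N.van k).hdeg
  have hmem : ∀ c : Mon N.ι k → R, p (fun α => Ideal.Quotient.mk W.I (c α)) ∈
      (N.van k).actSub (O Z) ↔
      ∀ x ∈ Z.pts, ∀ ξ ∈ W.Tan x, polEv (fun α => eval x (c α)) (dS x s ξ) = 0 := fun c => by
    refine ((N.van k).mem_act_O c).trans (forall₂_congr fun x hx => ?_)
    refine mem_vanOn.trans ?_
    rw [hN x hx]
    exact ⟨fun H ξ hξ => H _ ⟨ξ, hξ, rfl⟩, fun H => by rintro _ ⟨ξ, hξ, rfl⟩; exact H ξ hξ⟩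
  have e1 : cq Z T ⊤ ((ipw (sI s) (O W) (k + 1)).comap f) =
      cq Z (O W) (ipw (sI s) (O W) k) (ipw (sI s) (O W) (k + 1)) := by
    refine cq_map hf (stab_top _) hK (stab_ipw hI _ _) (stab_ipw hI _ _) (fun a _ => ?_)
      (fun _ _ => Iff.rfl) fun a' ha' => ?_
    · obtain ⟨c, rfl⟩ := exists_rep W a
      rw [hf2]
      exact mk_mem_ipw.2 (Ideal.mem_sup_left ((mem_pow_iff s k).2 ⟨c, rfl⟩))
    · obtain ⟨r, rfl⟩ := Ideal.Quotient.mk_surjective (I := W.I) a'
      obtain ⟨b, hb, w, hw, rfl⟩ := Submodule.mem_sup.1 (mk_mem_ipw.1 ha')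
      obtain ⟨c, rfl⟩ := (mem_pow_iff s k).1 hb
      refine ⟨fun α => Ideal.Quotient.mk W.I (c α), trivial, ?_⟩
      rw [hf2]
      refine (map_sub (Ideal.Quotient.mk W.I) _ _) ▸ mk_mem_ipw.2 (Ideal.mem_sup_right ?_)
      rw [sub_add_cancel_left]
      exact neg_mem hw
  have e2 : cq Z T ⊤ ((ipw (sI s) (O W) (k + 1)).comap f) =
      cq Z T' ⊤ ((N.van k).actSub (O Z)) := by
    refine cq_loc hp (stab_top _) hK (stab_top _) ((N.van k).stab_actSub _)
      (h.sub.1 ▸ hT.deg) hT'.deg ?_ (sup_of_on hT' _ _) (fun _ _ => trivial) (fun a _ ha => ?_)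
      fun x hx => ?_
    · refine sup_of_pow (s := s) (k := 1) h.sub (fun x hx h0 => (h.zero x hx).2 h0) hT
        fun r hr a _ => ?_
      obtain ⟨c, rfl⟩ := exists_rep W a
      rw [Submodule.mem_comap, map_smul, hf2]
      refine (mk_mem_ipw (a := r * _)).2 (Ideal.mem_sup_left ?_)
      rw [add_comm, pow_add]
      exact Ideal.mul_mem_mul hr ((mem_pow_iff s k).2 ⟨c, rfl⟩)
    · obtain ⟨c, rfl⟩ := exists_rep W a
      rw [Submodule.mem_comap, hf2] at ha
      exact (hmem c).2 fun x hx ξ hξ => jet (h.sub.2 hx) (h.sm x hx) hξ s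
        (fun i => h.mem_I i x hx) c (mk_mem_ipw.1 ha)
    · obtain ⟨r, hr, H⟩ := h.mem_of_van hx k
      refine ⟨r, hr, fun a _ ha => ?_, fun a' _ => ?_⟩
      · obtain ⟨c, rfl⟩ := exists_rep W a
        rw [Submodule.mem_comap, map_smul, hf2]
        exact (mk_mem_ipw (a := r * _)).2 (H c ((hmem c).1 ha))
      · obtain ⟨c, hc⟩ := exists_rep Z (r • a')
        refine ⟨fun α => Ideal.Quotient.mk W.I (c α), trivial, ?_⟩
        rw [hp2, ← hc, sub_self]
        exact zero_mem _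
  have e3 := cq_add (X := Z) (stab_top T') ((N.van k).stab_actSub (O Z)) (stab_bot T') le_top bot_le
    hT'.deg (sup_of_on hT' _ _)
  have e4 : (N.van k).amb.actSub (O Z) = ⊤ := eq_top_iff.2 fun u _ =>
    (N.van k).amb.act_top (fun _ _ => rfl) (red_O Z).ann (N := (O Z).M) u
  have e5 : cq Z T' ⊤ ⊥ = cl Z ((N.van k).amb.act (O Z)) := by
    rw [← e4]
    exact cq_sub ((N.van k).amb.stab_actSub (O Z))
  have e6 : cq Z T' ((N.van k).actSub (O Z)) ⊥ = cl Z ((N.van k).act (O Z)) :=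
    cq_sub ((N.van k).stab_actSub (O Z))
  rw [← e1, e2, Sd, sub_smul, one, kl_smul _ (red_O Z), kl_smul _ (red_O Z), ← e5, e3, e6]
  exact (add_sub_cancel_left _ _).symm

end Crest.Agent.N265.V
end
end

-- ▼ part N265/V/Psi
section

/-! # Row 265, layer V: the refined Gysin map `psi : G W → G Q` (helper94) -/

set_option autoImplicit false
noncomputable section
open MvPolynomial Module

namespace Crest.Agent.N265.V
open GM Bun
variable {W W' Q Q' : Spc} {r : ℕ}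

section
variable {E : Bun Q} {s : E.ι → R} (h : Cone W Q E s)
include h

theorem cone_sup {M : GM} (hM : M.Red W) {A B : Submodule R M.M} {k : ℕ}
    (hk : ∀ r ∈ sI s ^ k, ∀ a ∈ A, r • a ∈ B) : Sup Q M A B :=
  sup_of_pow h.sub (fun x hx h0 => (h.zero x hx).2 h0) hM.on hk
theorem cone_sup_ipw {M : GM} (hM : M.Red W) (A : Submodule R M.M) (k : ℕ) :
    Sup Q M A (ipw (sI s) M k) := cone_sup h hM fun _ hr a _ => smul_mem_ipw hr a
theorem cone_deg {M : GM} (hM : M.Red W) : M.DegIn Q.B := h.sub.1 ▸ hM.deg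
theorem tame_grs (hr : E.Rk r) {M : GM} (hM : M.Red W) : Tame (Lam E) (grs Q (sI s) M) :=
  h.toSyz.tame hr hM (sys_ipw (gam_span h.hmg) M) (sys_ipw_succ (gam_span h.hmg) M)
    fun k => cone_sup_ipw h hM _ (k + 1)

/-- the induced filtration on a submodule gives the same value -/
theorem ev_induced (hr : E.Rk r) {M N : GM} (hM : M.Red W) (f : N.M →ₗ[R] M.M) (hf : Deg0 f)
    (hi : Function.Injective f) :
    Tame (Lam E) (zs fun k => cq Q M (LinearMap.range f ⊓ ipw (sI s) M k)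
      (LinearMap.range f ⊓ ipw (sI s) M (k + 1))) ∧
    ev (Lam E) (zs fun k => cq Q M (LinearMap.range f ⊓ ipw (sI s) M k)
      (LinearMap.range f ⊓ ipw (sI s) M (k + 1))) = ev (Lam E) (grs Q (sI s) N) := by
  have hI : ∀ r ∈ sI s, gam r ∈ sI s := gam_span h.hmg
  have hF := (sys_ipw hI M).inf hf.stab_range
  have hP := sys_map hI hf
  have hle : ∀ k, (ipw (sI s) N k).map f ≤ LinearMap.range f ⊓ ipw (sI s) M k :=
    fun k => le_inf LinearMap.map_le_range (map_ipw_le f k)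
  have hS : ∀ j k, Sup Q M (LinearMap.range f ⊓ ipw (sI s) M j) ((ipw (sI s) N k).map f) :=
    fun j k => cone_sup h hM (k := k) <| by
      rintro c hc _ ⟨⟨n, rfl⟩, -⟩
      exact ⟨c • n, smul_mem_ipw hc n, map_smul f c n⟩
  obtain ⟨t1, t2⟩ := ev_tele (h.toSyz.tame hr hM hF hP fun k => hS k k)
  have tN := tame_grs h hr (hM.of_inj hf hi)
  have key : (zs fun k => cq Q M (LinearMap.range f ⊓ ipw (sI s) M k)
      (LinearMap.range f ⊓ ipw (sI s) M (k + 1))) = grs Q (sI s) N + zs fun k =>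
        cq Q M (LinearMap.range f ⊓ ipw (sI s) M k) ((ipw (sI s) N k).map f) -
        cq Q M (LinearMap.range f ⊓ ipw (sI s) M (k + 1)) ((ipw (sI s) N (k + 1)).map f) := by
    rw [grs, ← zs_add]
    congr 1
    funext k
    have e1 := cq_add (hF.stab k) (hF.stab (k + 1)) (hP.stab (k + 1))
      (inf_le_inf_left _ (ipw_succ_le _ M k)) (hle (k + 1)) (cone_deg h hM) (hS k (k + 1))
    have e2 := cq_add (hF.stab k) (hP.stab k) (hP.stab (k + 1)) (hle k)
      (Submodule.map_mono (ipw_succ_le _ N k)) (cone_deg h hM) (hS k (k + 1))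
    have e3 : cq Q N (ipw (sI s) N k) (ipw (sI s) N (k + 1)) =
        cq Q M ((ipw (sI s) N k).map f) ((ipw (sI s) N (k + 1)).map f) :=
      cq_map hf (stab_ipw hI N k) (stab_ipw hI N (k + 1)) (hP.stab k) (hP.stab (k + 1))
        (fun a ha => ⟨a, ha, rfl⟩)
        (fun a _ => ⟨fun ha => ⟨a, ha, rfl⟩, fun ⟨b, hb, e⟩ => hi e ▸ hb⟩)
        (by rintro _ ⟨a, ha, rfl⟩; exact ⟨a, ha, by rw [sub_self]; exact zero_mem _⟩)
    rw [Pi.add_apply, e3, ← add_sub_assoc, ← e2, e1, add_sub_cancel_left]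
  rw [key]
  refine ⟨tN.add t1, ?_⟩
  rw [ev_add tN t1, t2, cq_of_le, smul_zero, add_zero]
  rintro _ ⟨⟨n, rfl⟩, -⟩
  exact ⟨n, by rw [ipw_zero]; trivial, rfl⟩

theorem ev_ses (hr : E.Rk r) {A B C : GM} (hs : GM.SES A B C) (hB : B.Red W) :
    ev (Lam E) (grs Q (sI s) B) = ev (Lam E) (grs Q (sI s) A) + ev (Lam E) (grs Q (sI s) C) := by
  obtain ⟨f, p, hf, hp, hi, he, hs⟩ := hs
  have hI : ∀ r ∈ sI s, gam r ∈ sI s := gam_span h.hmg
  obtain ⟨t1, t2⟩ := ev_induced h hr hB f hf hi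
  rw [← t2, ← ev_add t1 (tame_grs h hr (hB.of_surj hp hs)), grs, grs, ← zs_add]
  congr 2
  funext k
  have hF := ((sys_ipw hI B).inf hf.stab_range).stab
  have hm := stab_sup (stab_ipw hI B (k + 1)) (hF k)
  rw [cq_add (stab_ipw hI B k) hm (stab_ipw hI B (k + 1))
    (sup_le (ipw_succ_le _ B k) inf_le_right) le_sup_left (cone_deg h hB)
    (cone_sup_ipw h hB _ _), Pi.add_apply]
  congr 1
  · refine (cq_map (f := LinearMap.id) (fun _ => rfl) (hF k) (hF (k + 1)) hm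
      (stab_ipw hI B (k + 1)) (fun a ha => Submodule.mem_sup_right ha)
      (fun a ha => ⟨fun h => h.2, fun h => ⟨ha.1, h⟩⟩) fun a ha => ?_).symm
    obtain ⟨x, hx, y, hy, rfl⟩ := Submodule.mem_sup.1 ha
    exact ⟨y, hy, by simpa using hx⟩
  · refine cq_map hp (stab_ipw hI B k) hm (stab_ipw hI C k) (stab_ipw hI C (k + 1))
      (fun a ha => map_ipw_le p k ⟨a, ha, rfl⟩) (fun a ha => ⟨fun h' => ?_, fun h' => ?_⟩)
      fun c hc => ?_
    · obtain ⟨x, hx, y, hy, rfl⟩ := Submodule.mem_sup.1 h'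
      rw [map_add, (he y).2 hy.1, add_zero]
      exact map_ipw_le p _ ⟨x, hx, rfl⟩
    · rw [← map_ipw p hs] at h'
      obtain ⟨x, hx, e⟩ := h'
      refine Submodule.mem_sup.2 ⟨x, hx, a - x, ⟨(he _).1 (by rw [map_sub, e, sub_self]),
        sub_mem ha (ipw_succ_le _ B k hx)⟩, add_sub_cancel x a⟩
    · rw [← map_ipw p hs] at hc
      obtain ⟨a, ha, rfl⟩ := hc
      exact ⟨a, ha, by rw [sub_self]; exact zero_mem _⟩
end

theorem exists_psi {E : Bun Q} {s : E.ι → R} (h : Cone W Q E s) (hr : E.Rk r) :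
    ∃ Ψ : G W →+ G Q, ∀ M : GM, M.Red W → Ψ (cl W M) = ev (Lam E) (grs Q (sI s) M) := by
  refine G.exists_liftRed _ (fun A B C hs hB => ev_ses h hr hs hB) fun A _ hi => ?_
  have : (fun k => cq Q A (ipw (sI s) A k) (ipw (sI s) A (k + 1))) = 0 := funext fun k =>
    cq_irr fun x hx => (hi x (h.sub.2 hx)).imp fun _ hc => ⟨hc.1, fun a _ => by
      rw [hc.2]; exact zero_mem _⟩
  rw [grs, this, zs_zero, ev_zero]
/-- the refined Gysin map -/
def psi {E : Bun Q} {s : E.ι → R} (h : Cone W Q E s) (hr : E.Rk r) : G W →+ G Q :=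
  (exists_psi h hr).choose
theorem psi_cl {E : Bun Q} {s : E.ι → R} (h : Cone W Q E s) (hr : E.Rk r) {M : GM} (hM : M.Red W) :
    psi h hr (cl W M) = ev (Lam E) (grs Q (sI s) M) := (exists_psi h hr).choose_spec M hM

theorem psi_kl {E : Bun Q} {s : E.ι → R} (h : Cone W Q E s) (hr : E.Rk r) (A : Bun W) {M : GM}
    (hM : M.Red W) : psi h hr (A.kl • cl W M) = K.pull h.sub.proj A.kl • psi h hr (cl W M) := by
  have hI : ∀ r ∈ sI s, gam r ∈ sI s := gam_span h.hmg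
  have := (ev_induced h hr (hM.pw A.hdeg) (N := A.act M) (A.actSub M).subtype
    (deg0_subtype (A.stab_actSub M)) Subtype.val_injective).2
  rw [kl_smul A hM, psi_cl h hr (A.red_act hM), ← this, psi_cl h hr hM, ← op_smul,
    ← ev_smul (tame_grs h hr hM), grs, ← zs_smul]
  congr 2
  funext k
  rw [op_smul, K.pull_kl, ← act_sq h.sub A hM (stab_ipw hI M k) (stab_ipw hI M (k + 1))
    (ipw_succ_le _ M k) (cone_sup_ipw h hM _ _), ipw_pw, ipw_pw]
  congr 2 <;> exact Submodule.range_subtype _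
theorem psi_smul {E : Bun Q} {s : E.ι → R} (h : Cone W Q E s) (hr : E.Rk r) (u : Op W) (a : G W) :
    psi h hr (u • a) = Op.pull h.sub.proj u • psi h hr a := by
  obtain ⟨u, rfl⟩ := op_surj u
  rw [Op.pull_op, op_smul, op_smul]
  induction a using G.ind_red with
  | h0 => simp
  | hneg a ha => rw [smul_neg, map_neg, map_neg, ha, smul_neg]
  | hadd a b ha hb => rw [smul_add, map_add, map_add, ha, hb, smul_add]
  | hcl M hM =>
    induction u using K.ind with
    | h0 => simp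
    | hkl A => exact psi_kl h hr A hM
    | hneg u hu => rw [neg_smul, map_neg, map_neg, hu, neg_smul]
    | hadd u v hu hv => rw [add_smul, map_add, map_add, hu, hv, add_smul]

theorem incl_smul (hQ : Q'.Sub Q) (c : Op Q) (x : G Q') :
    incl Q' Q (Op.pull hQ.proj c • x) = c • incl Q' Q x := by
  rw [← push_eq_incl hQ, push_smul]

theorem psi_incl {E : Bun Q} {s : E.ι → R} (h : Cone W Q E s) (hr : E.Rk r) (hW : W'.Sub W)
    (hQ : Q'.Sub Q) (h' : Cone W' Q' (E.pull hQ.proj) s) (a : G W') :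
    psi h hr (incl W' W a) = incl Q' Q (psi h' (hr.pull _) a) := by
  refine DFunLike.congr_fun (G.hom_ext_red (φ := (psi h hr).comp (incl W' W))
    (ψ := (incl Q' Q).comp (psi h' (hr.pull _))) fun M hM => ?_) a
  have t := tame_grs h' (hr.pull _) hM
  rw [Lam_pull] at t
  rw [AddMonoidHom.comp_apply, AddMonoidHom.comp_apply, incl_cl hW hM.on, psi_cl h hr (hM.mono hW),
    psi_cl h' _ hM, Lam_pull, (t.push _ _ (incl_smul hQ)).2]
  congr 1
  rw [grs, grs, ← zs_map]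
  congr 1
  funext k
  exact (incl_cq hQ (cone_deg h (hM.mono hW)) (cone_sup_ipw h' hM _ _)).symm

theorem incl_psi {E : Bun W} {s : E.ι → R} (hr : E.Rk r) (hs : E.IsSec s) (hQ : Q.Sub W)
    (h : Cone W Q (E.pull hQ.proj) s) (a : G W) :
    incl Q W (psi h (hr.pull _) a) = eu E • a := by
  induction a using G.ind_red with
  | h0 => simp
  | hneg a ha => rw [map_neg, map_neg, ha, smul_neg]
  | hadd a b ha hb => rw [map_add, map_add, ha, hb, smul_add]
  | hcl M hM =>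
    have hI : ∀ r ∈ sI s, gam r ∈ sI s := gam_span h.hmg
    have t := tame_grs h (hr.pull _) hM
    rw [Lam_pull] at t
    have t2 := (ev_tele ((syz_of_sec E hs h.hmg).tame hr hM (sys_ipw hI M) (sys_bot M _)
      fun k => sup_of_on hM.on _ _)).2
    rw [ipw_zero, cq_top_bot] at t2
    rw [psi_cl h _ hM, Lam_pull, (t.push _ _ (incl_smul hQ)).2, eu, ← t2]
    congr 1
    rw [grs, ← zs_map]
    congr 1
    funext k
    rw [incl_cq hQ hM.deg (cone_sup_ipw h hM _ _), cq_add (stab_ipw hI M k) (stab_ipw hI M (k + 1))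
      (stab_bot M) (ipw_succ_le _ M k) bot_le hM.deg (sup_of_on hM.on _ _), add_sub_cancel_left]
    rfl

theorem psi_one {E : Bun Q} {s : E.ι → R} (h : Cone W Q E s) (hr : E.Rk r) (hR : Reg W Q s)
    {C : Bun Q} (hC : E.kl = (hR.nor h.hmg).kl + C.kl) : psi h hr (one W) = eu C • one Q := by
  obtain ⟨t1, t2⟩ := ev_inv (Lam_mul_SdS (hR.nor h.hmg)) (one Q)
  have : grs Q (sI s) (O W) = zs fun k => PowerSeries.coeff k (SdS (hR.nor h.hmg)) • one Q := by
    rw [grs]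
    congr 1
    funext k
    rw [SdS, PowerSeries.coeff_mk, op_smul]
    exact Reg.gr (N := hR.nor h.hmg) hR h.hmg (fun _ _ => rfl) k
  rw [one, psi_cl h hr (red_O W), this, Lam_add hC, mul_comm, ev_mul t1, t2, eu]

end Crest.Agent.N265.V
end
end

-- ▼ part N265/V/Fix
section

/-! # Row 265, layer V, task V6: fixed loci are smooth; partial fractions -/

set_option autoImplicit false
noncomputable section
open MvPolynomial Module

namespace Crest.Agent.N265.V
open GM Bun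
variable {W X Y : Spc}

/-- the moving variables -/
def mov (V : Finset Var) (w : ℕ → ℤ) : Finset Var := V.filter fun v => v.2.2 ≠ w v.1
lemma mem_mov {V : Finset Var} {w : ℕ → ℤ} {v : Var} : v ∈ mov V w ↔ v ∈ V ∧ v.2.2 ≠ w v.1 :=
  Finset.mem_filter
/-- the moving coordinates -/
def ymov (V : Finset Var) (w : ℕ → ℤ) : mov V w → R := fun v => MvPolynomial.X v.1
lemma mem_fix {w : ℕ → ℤ} {x : Pt} :
    x ∈ (W.fix w).pts ↔ x ∈ W.pts ∧ ∀ v : Var, x v ≠ 0 → v.2.2 = w v.1 := by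
  constructor
  · rintro ⟨h1, h2⟩
    exact ⟨h1, fun v hv => by_contra fun hn => hv (by simpa using h2 _ ⟨v, hn, rfl⟩)⟩
  · rintro ⟨h1, h2⟩
    refine ⟨h1, ?_⟩
    rintro _ ⟨v, hn, rfl⟩
    rw [eval_X]
    exact by_contra fun hv => hn (h2 v hv)
lemma fix_sub (W : Spc) (w : ℕ → ℤ) : (W.fix w).Sub W := W.cut_sub _ _
lemma tan_inf_ker {V : Finset Var} (hV : W.Vars V) (w : ℕ → ℤ) (x : Pt) :
    W.Tan x ⊓ LinearMap.ker (dS x (ymov V w)) = W.Tan x ⊓ fixS w := by
  ext ξ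
  rw [Submodule.mem_inf, Submodule.mem_inf, mem_ker_dS, mem_fixS]
  refine and_congr_right fun hξ => ⟨fun h v hv => ?_, fun h v => ?_⟩
  · by_cases hv' : v ∈ V
    · simpa [ymov] using h ⟨v, mem_mov.2 ⟨hv', hv⟩⟩
    · simpa using hξ (MvPolynomial.X v) fun y hy => by rw [eval_X]; exact hV.2 y hy v hv'
  · simpa [ymov] using h v.1 (mem_mov.1 v.2).2

/-- the one-parameter subgroup fixing the points of block weights `w` -/
lemma exists_char (w : ℕ → ℤ) : ∃ τ : D → ℂ, Jac.IsChar τ ∧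
    ∀ v : Var, τ (vdeg v) = 2 ^ (v.2.2 - w v.1) := by
  let ℓ : D →+ ℤ := Finsupp.liftAddHom fun i => AddMonoidHom.mulLeft (i.elim 1 fun b => -w b)
  refine ⟨fun d => 2 ^ ℓ d, ⟨by simp, fun d e => by rw [map_add, zpow_add₀ two_ne_zero]⟩,
    fun v => ?_⟩
  have : ℓ (vdeg v) = v.2.2 - w v.1 := by
    rw [vdeg, map_add, map_zsmul, eB, eT, Finsupp.liftAddHom_apply_single,
      Finsupp.liftAddHom_apply_single]
    simp
    ring
  simp only [this]

/-- near a smooth fixed point the moving coordinates are generated by those with independent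
differentials -/
lemma exists_fix_eqs {V : Finset Var} (hV : W.Vars V) (w : ℕ → ℤ) {z : Pt}
    (hz : z ∈ (W.fix w).pts) {κ : Type} (a : κ → mov V w)
    (ha : ∀ v : mov V w, ∃ co : κ →₀ ℂ, ∀ ξ ∈ W.Tan z, ξ v = co.sum fun j c => c * ξ (a j)) :
    ∃ r, eval z r ≠ 0 ∧ ∀ v : mov V w, r * ymov V w v ∈ W.I ⊔ sI fun j => ymov V w (a j) := by
  obtain ⟨τ, hτ, hτ'⟩ := exists_char w
  obtain ⟨hzW, hz'⟩ := mem_fix.1 hz
  set α := Jac.scal fun v => τ (vdeg v) with hα
  have hz0 : ∀ v : mov V w, z v = 0 := fun v => by_contra fun h => (mem_mov.1 v.2).2 (hz' v h)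
  have hαz : ∀ r, eval z (α r) = eval z r := fun r => by
    rw [hα, Jac.eval_scal]
    congr 2
    funext v
    by_cases h : z v = 0
    · simp [h]
    · simp [hτ', hz' v h]
  have h1 : ∀ r, α r - r ∈ W.I ⊔ sI (ymov V w) := fun r => by
    induction r using MvPolynomial.induction_on with
    | C c => simp [hα]
    | add p q hp hq =>
      convert add_mem hp hq using 1
      rw [map_add]; ring
    | mul_X p v hp =>
      have h2 : α (MvPolynomial.X v) - MvPolynomial.X v ∈ W.I ⊔ sI (ymov V w) := by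
        rw [hα, Jac.scal_X, hτ']
        by_cases hv : v.2.2 = w v.1
        · simp [hv]
        · rw [← sub_one_mul]
          refine Ideal.mul_mem_left _ _ ?_
          by_cases hv' : v ∈ V
          · exact Ideal.mem_sup_right (mem_sI (ymov V w) ⟨v, mem_mov.2 ⟨hv', hv⟩⟩)
          · exact Ideal.mem_sup_left fun y hy => by rw [eval_X]; exact hV.2 y hy v hv'
      convert add_mem (Ideal.mul_mem_right (α (MvPolynomial.X v)) _ hp)
        (Ideal.mul_mem_left _ p h2) using 1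
      rw [map_mul]; ring
  have h2 : ∀ q ∈ W.I ⊔ mx z ^ 2, α q - q ∈ W.I ⊔ mx z • sI (ymov V w) := by
    intro q' hq'
    obtain ⟨i, hi, q, hq, rfl⟩ := Submodule.mem_sup.1 hq'
    clear hq'
    have h3 : mx z * (W.I ⊔ sI (ymov V w)) ≤ W.I ⊔ mx z • sI (ymov V w) := by
      rw [Ideal.mul_sup]
      exact sup_le_sup Ideal.mul_le_right le_rfl
    have h4 : α q - q ∈ mx z * (W.I ⊔ sI (ymov V w)) := by
      rw [pow_two] at hq
      refine Submodule.mul_induction_on hq (fun b hb c hc => ?_) fun b c hb hc => ?_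
      · have hb' : α b ∈ mx z := by rw [mem_mx, hαz]; exact hb
        convert add_mem (Ideal.mul_mem_mul hb' (h1 c)) (Ideal.mul_mem_mul hc (h1 b)) using 1
        rw [map_mul]; ring
      · convert add_mem hb hc using 1
        rw [map_add]; ring
    convert add_mem (Ideal.mem_sup_left (sub_mem (Jac.stab_torus (Jac.stabI_I W) hτ hi) hi))
      (h3 h4) using 1
    rw [map_add]; ring
  have h5 : sI (ymov V w) ≤ (W.I ⊔ sI fun j => ymov V w (a j)) ⊔ mx z • sI (ymov V w) := by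
    rw [sI, Ideal.span_le]
    rintro _ ⟨v, rfl⟩
    obtain ⟨co, hco⟩ := ha v
    have hl : ∀ f : κ → ℂ, (co.sum fun j c => C (f j * c) * ymov V w (a j)) ∈
        sI fun j => ymov V w (a j) := fun f =>
      Ideal.sum_mem _ fun j _ => Ideal.mul_mem_left _ _ (mem_sI (fun j => ymov V w (a j)) j)
    have hq := h2 _ (Jac.mem_sup_sq_of_dAt (Jac.finJ_I W) (Jac.I_le_mx hzW)
      (r := ymov V w v - co.sum fun j c => C c * ymov V w (a j)) (by
        simp [mem_mx, ymov, Finsupp.sum, hz0]) fun ξ hξ => by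
        rw [Jac.dAt_sub, Finsupp.sum, Jac.dAt_sum]
        simp only [Jac.dAt_C_mul, ymov, dAt_X]
        rw [hco ξ hξ, Finsupp.sum, sub_self])
    have hc : τ (vdeg v) - 1 ≠ 0 := by
      rw [hτ', sub_ne_zero]
      intro h
      have h' : (2 : ℝ) ^ (v.1.2.2 - w v.1.1) = 1 := by
        apply Complex.ofReal_injective
        push_cast
        exact h
      rw [zpow_eq_one_iff_right₀ (by norm_num) (by norm_num), sub_eq_zero] at h'
      exact (mem_mov.1 v.2).2 h'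
    have h6 : C (τ (vdeg v) - 1) * ymov V w v ∈
        (W.I ⊔ sI fun j => ymov V w (a j)) ⊔ mx z • sI (ymov V w) := by
      have h7 := add_mem ((sup_le_sup_right (le_sup_left (b := sI fun j => ymov V w (a j))) _) hq)
        (Ideal.mem_sup_left (Ideal.mem_sup_right (hl fun j => τ (vdeg (a j)) - 1)))
      convert h7 using 1
      simp only [map_sub, Finsupp.sum, map_sum, map_mul, ymov, hα, Jac.scal_X, Jac.scal_C, map_one,
        sub_mul, one_mul, Finset.sum_sub_distrib, mul_left_comm, mul_assoc]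
      ring
    have h8 := Ideal.mul_mem_left _ (C (τ (vdeg v) - 1)⁻¹) h6
    rwa [← mul_assoc, ← map_mul, inv_mul_cancel₀ hc, map_one, one_mul] at h8
  obtain ⟨r, hr, h9⟩ := Submodule.exists_sub_one_mem_and_smul_le_of_fg_of_le_sup
    (Submodule.fg_span (Set.finite_range (ymov V w))) le_rfl h5
  refine ⟨r, fun h => ?_, fun v => h9 (Submodule.smul_mem_pointwise_smul _ r _ (mem_sI _ v))⟩
  rw [mem_mx, map_sub, h, map_one] at hr
  simp at hr
/-- The fixed locus is cut out by `c = rank` of the moving coordinates. Let `α = aeval (X v ↦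
2^(wt v - w b) X v)`; it preserves `W.I` (`exists_tor`, `Spc.tpt_mem`), `α a - a ∈ 𝔟 = (X v, v moving)`
for all `a`, so `α q - q ∈ 𝔪_x 𝔟` for `q ∈ 𝔪_x²`. Choose moving variables `y_1..y_c` whose
differentials are a basis of the span of all `dX_v|T_xW`, `v` moving. Then
`q = X v - ∑ a_j y_j ∈ W.I + 𝔪_x²` (`Jac.mem_sup_sq_of_dAt`), `α q - q` gives
`X v ∈ (y) + W.I + 𝔪_x 𝔟`; Nakayama; `Jac.ldim_le_add`. -/
theorem reg_fix {V : Finset Var} (hV : W.Vars V) (w : ℕ → ℤ)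
    (hs : ∀ z ∈ (W.fix w).pts, W.SmAt z) : Reg W (W.fix w) (ymov V w) := by
  refine ⟨fix_sub W w, fun x hx => ?_, hs, fun z hz => ?_⟩
  · rw [mem_fix]
    refine ⟨fun h v => ?_, fun h => ⟨hx, fun v hv => by_contra fun hn => hv ?_⟩⟩
    · rw [ymov, eval_X]
      exact by_contra fun h0 => (mem_mov.1 v.2).2 (h.2 v h0)
    · by_cases hv' : v ∈ V
      · simpa [ymov] using h ⟨v, mem_mov.2 ⟨hv', hn⟩⟩
      · exact hV.2 x hx v hv'
  · have hzW := (mem_fix.1 hz).1
    let φ : mov V w → Module.Dual ℂ (W.Tan z) := fun v => LinearMap.proj v.1 ∘ₗ (W.Tan z).subtype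
    obtain ⟨κ, a, hinj, hsp, hli⟩ := exists_linearIndependent' ℂ φ
    have : Finite κ := Finite.of_injective a hinj
    have : Fintype κ := Fintype.ofFinite κ
    obtain ⟨r, hr, h1⟩ := exists_fix_eqs hV w hz a fun v => by
      have h2 : φ v ∈ Submodule.span ℂ (Set.range (φ ∘ a)) := hsp ▸ Submodule.subset_span ⟨v, rfl⟩
      obtain ⟨co, hco⟩ := Finsupp.mem_span_range_iff_exists_finsupp.1 h2
      refine ⟨co, fun ξ hξ => ?_⟩
      have := LinearMap.congr_fun hco ⟨ξ, hξ⟩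
      rw [Finsupp.sum, LinearMap.sum_apply] at this
      exact this.symm
    have h3 := Spc.ldim_le_add (fix_sub W w) hz (fun j => ymov V w (a j)) hr fun y hy hry => by
      rw [mem_fix]
      refine ⟨fun h j => ?_, fun h => ⟨hy, fun v hv => by_contra fun hn => hv ?_⟩⟩
      · rw [ymov, eval_X]
        exact by_contra fun h0 => (mem_mov.1 (a j).2).2 (h.2 _ h0)
      · by_cases hv' : v ∈ V
        · have h4 : W.I ⊔ sI (fun j => ymov V w (a j)) ≤ mx y := Jac.sup_span_le (Jac.I_le_mx hy) h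
          have h5 := h4 (h1 ⟨v, mem_mov.2 ⟨hv', hn⟩⟩)
          rw [mem_mx, map_mul, ymov, eval_X] at h5
          exact (mul_eq_zero.1 h5).resolve_left hry
        · exact hV.2 y hy v hv'
    have h6 := Subspace.finrank_add_finrank_dualCoannihilator_eq
      (Submodule.span ℂ (Set.range (φ ∘ a)))
    rw [finrank_span_eq_card hli] at h6
    have h7 : finrank ℂ (W.Tan z ⊓ LinearMap.ker (dS z (ymov V w)) : Submodule ℂ Pt) ≤
        finrank ℂ (Submodule.span ℂ (Set.range (φ ∘ a))).dualCoannihilator := by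
      rw [← Submodule.finrank_map_subtype_eq]
      refine Submodule.finrank_mono fun ξ hξ => ⟨⟨ξ, hξ.1⟩, ?_, rfl⟩
      rw [SetLike.mem_coe, Submodule.mem_dualCoannihilator]
      intro ψ hψ
      refine Submodule.span_induction (p := fun ψ _ => ψ ⟨ξ, hξ.1⟩ = 0) ?_ rfl ?_ ?_ hψ
      · rintro _ ⟨j, rfl⟩
        have h8 := mem_ker_dS.1 hξ.2 (a j)
        rw [ymov, dAt_X] at h8
        exact h8
      · intro p q _ _ hp hq
        rw [LinearMap.add_apply, hp, hq, add_zero]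
      · intro c p _ hp
        rw [LinearMap.smul_apply, hp, smul_zero]
    have h8 := (hs z hz).trans h3
    refine (ENat.add_le_add_iff_right (ENat.natCast_ne_top (Fintype.card κ))).1 (le_trans ?_ h8)
    exact_mod_cast (by omega : finrank ℂ (W.Tan z ⊓ LinearMap.ker (dS z (ymov V w)) :
      Submodule ℂ Pt) + Fintype.card κ ≤ finrank ℂ (W.Tan z))

/-- the trivial bundle of the moving coordinates -/
def amov (X : Spc) (V : Finset Var) (hV : X.Vars V) (w : ℕ → ℤ) : Bun X :=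
  triv X (fun v : mov V w => vdeg v.1) fun v => vdeg_mem (hV.1 _ (mem_mov.1 v.2).1)
/-- its Euler class -/
def gw (X : Spc) (V : Finset Var) (w : ℕ → ℤ) : Op X := ∏ v ∈ mov V w, (1 - lb X (-vdeg v))
lemma eu_amov {V : Finset Var} (hV : X.Vars V) (w : ℕ → ℤ) : eu (amov X V hV w) = gw X V w := by
  rw [eu, Lam_of_kl_sum (A := amov X V hV w) Finset.univ (fun v : mov V w => vdeg v.1) (kl_triv _ _),
    Polynomial.eval_prod, gw, ← Finset.prod_coe_sort (mov V w)]
  simp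
lemma pull_gw (p : Proj Y X) {V : Finset Var} (hV : X.Vars V) (w : ℕ → ℤ) :
    Op.pull p (gw X V w) = gw Y V w := by
  rw [gw, gw, map_prod]
  refine Finset.prod_congr rfl fun v hv => ?_
  rw [map_sub, map_one, Op.pull_lb p (neg_mem (vdeg_mem (hV.1 v (mem_mov.1 hv).1)))]
/-- `prod_one_sub_lb` for the variables of block `b` and weight `w b` -/
lemma gw_eq_zero {V : Finset Var} (hV : Y.Vars V) {w w' : ℕ → ℤ} (hw : Y.TTriv w) {b : ℕ}
    (hb : b ∈ Y.B) (hne : w' b ≠ w b) : gw Y V w' = 0 := by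
  have h1 := prod_one_sub_lb hb (V.filter fun v => v.1 = b ∧ v.2.2 = w b)
    (fun v hv => (Finset.mem_filter.1 hv).2.1) fun x hx v hv h0 => Finset.mem_filter.2
      ⟨by by_contra h; exact h0 (hV.2 x hx v h), hv, by rw [hw x hx v h0, hv]⟩
  refine zero_dvd_iff.1 (h1 ▸ Finset.prod_dvd_prod_of_subset _ _ _ fun v hv => ?_)
  obtain ⟨h2, h3, h4⟩ := Finset.mem_filter.1 hv
  exact mem_mov.2 ⟨h2, by rw [h3, h4]; exact hne.symm⟩
/-- Partial fractions. `S` = functions with values in the weights of `V` on `X.B`, zero outside.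
Otherwise a prime `𝔭 ⊇ (gw w)_w` avoids `tHom Mov` (`Ideal.exists_le_prime_disjoint`); every block
has a variable `v_b` with `1 - lb (-vdeg v_b) ∈ 𝔭` (`prod_one_sub_lb`); for `w b = wt v_b` a factor
of `gw w` lies in `𝔭`, and two such factors of one block give `1 - t^k ∈ 𝔭`. -/
theorem exists_part {V : Finset Var} (hV : X.Vars V) : ∃ (S : Finset (ℕ → ℤ))
    (u : LaurentPolynomial ℤ) (c : (ℕ → ℤ) → Op X), u ∈ Mov ∧ (∀ w ∈ S, ∀ b ∉ X.B, w b = 0) ∧
      tHom X u = ∑ w ∈ S, c w * gw X V w := by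
  classical
  let S : Finset (ℕ → ℤ) := (X.B.pi fun _ => V.image fun v => v.2.2).image
    fun f b => if h : b ∈ X.B then f b h else 0
  have hS : ∀ w ∈ S, ∀ b ∉ X.B, w b = 0 := fun w hw b hb => by
    obtain ⟨f, -, rfl⟩ := Finset.mem_image.1 hw
    exact dif_neg hb
  by_cases h : ∃ u ∈ Mov, tHom X u ∈ Ideal.span (gw X V '' S)
  · obtain ⟨u, hu, h⟩ := h
    obtain ⟨c, hc⟩ := (Submodule.mem_span_image_finset_iff_exists_fun' _).1 h
    exact ⟨S, u, c, hu, hS, hc.symm⟩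
  exfalso
  obtain ⟨p, hp, hle, hd⟩ := Ideal.exists_le_prime_disjoint (Ideal.span (gw X V '' S))
    (Mov.map (tHom X)) (Set.disjoint_left.2 (by
      rintro _ h1 ⟨u, hu, rfl⟩
      exact h ⟨u, hu, h1⟩))
  have h1 : ∀ b ∈ X.B, ∃ v ∈ V, v.1 = b ∧ 1 - lb X (-vdeg v) ∈ p := fun b hb => by
    have h2 := prod_one_sub_lb hb (V.filter fun v => v.1 = b)
      (fun v hv => (Finset.mem_filter.1 hv).2) fun x hx v hv h0 => Finset.mem_filter.2
        ⟨by by_contra h; exact h0 (hV.2 x hx v h), hv⟩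
    obtain ⟨v, hv, h3⟩ := (Ideal.IsPrime.prod_mem_iff (hp := hp)).1 (h2 ▸ p.zero_mem)
    exact ⟨v, (Finset.mem_filter.1 hv).1, (Finset.mem_filter.1 hv).2, h3⟩
  choose vb h2 h3 h4 using h1
  have hw : (fun b => if h : b ∈ X.B then (vb b h).2.2 else 0) ∈ S :=
    Finset.mem_image.2 ⟨fun b h => (vb b h).2.2,
      Finset.mem_pi.2 fun b hb => Finset.mem_image_of_mem _ (h2 b hb), rfl⟩
  obtain ⟨v, hv, h5⟩ := (Ideal.IsPrime.prod_mem_iff (hp := hp)).1
    (hle (Ideal.subset_span ⟨_, hw, rfl⟩))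
  obtain ⟨h6, h7⟩ := mem_mov.1 hv
  have hb := hV.1 v h6
  rw [dif_pos hb] at h7
  refine Set.disjoint_left.1 hd ?_
    ⟨_, Submonoid.subset_closure ⟨_, sub_ne_zero.2 h7, rfl⟩, rfl⟩
  have h8 : lb X ((v.2.2 - (vb v.1 hb).2.2) • eT) * lb X (-vdeg v) = lb X (-vdeg (vb v.1 hb)) := by
    rw [← lb_add, vdeg, vdeg, h3, sub_smul]
    congr 1
    abel
  rw [SetLike.mem_coe, map_sub, map_one, tHom_T]
  convert sub_mem (h4 v.1 hb)
    (Ideal.mul_mem_left _ (lb X ((v.2.2 - (vb v.1 hb).2.2) • eT)) h5) using 1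
  rw [mul_sub, h8]
  ring

end Crest.Agent.N265.V
end
end

-- ▼ part N265/V/Loc

/-! # Row 265, layer V: OUTPUT. Zero locus lemma, excess formula, virtual localization -/

set_option autoImplicit false
noncomputable section
open MvPolynomial Module

namespace Crest.Agent.N265.V
open GM Bun

/-- excess intersection formula -/
theorem excess {W Z : Spc} {r : ℕ} {E : Bun W} (hE : E.Rk r) {s : E.ι → R} (hs : E.IsSec s)
    (hh : ∀ i, Hmg (E.deg i) (s i)) (hR : Reg W Z s) {C : Bun Z}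
    (hC : (E.pull hR.sub.proj).kl = (hR.nor (E := E.pull hR.sub.proj) hh).kl + C.kl) :
    incl Z W (eu C • one Z) = eu E • one W := by
  rw [← psi_one (cone_of_sec E hs hh hR.sub hR.zero) (hE.pull _) hR hC, incl_psi hE hs hR.sub]

/-- rank-nullity for the restriction to a finite-dimensional subspace -/
lemma finrank_inf_ker_add {M N : Type} [AddCommGroup M] [Module ℂ M] [AddCommGroup N] [Module ℂ N]
    (U : Submodule ℂ M) [Module.Finite ℂ U] (φ : M →ₗ[ℂ] N) :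
    finrank ℂ (U ⊓ LinearMap.ker φ : Submodule ℂ M) + finrank ℂ (U.map φ) = finrank ℂ U := by
  have h := LinearMap.finrank_range_add_finrank_ker (φ.domRestrict U)
  rw [LinearMap.range_domRestrict, LinearMap.ker_domRestrict,
    ← Submodule.finrank_map_subtype_eq, Submodule.map_comap_subtype] at h
  omega
/-- constant covectors that restrict to a basis of the dual of a subspace -/
lemma exists_inj_mat {ι : Type} [Fintype ι] (U : Submodule ℂ (ι → ℂ)) {r : ℕ}
    (hU : finrank ℂ U = r) : ∃ a : Matrix (Fin r) ι ℂ, U ⊓ LinearMap.ker a.mulVecLin = ⊥ := by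
  classical
  obtain ⟨φ, hφ⟩ := LinearMap.exists_extend (p := U)
    (LinearEquiv.ofFinrankEq U (Fin r → ℂ) (by simp [hU])).toLinearMap
  refine ⟨LinearMap.toMatrix' φ, ?_⟩
  rw [← Matrix.toLin'_apply', Matrix.toLin'_toMatrix', eq_bot_iff]
  rintro v ⟨h1, h2⟩
  have h3 := DFunLike.congr_fun hφ ⟨v, h1⟩
  simp only [LinearMap.comp_apply, Submodule.subtype_apply, LinearEquiv.coe_coe] at h3
  rw [show φ v = 0 from h2, eq_comm, LinearEquiv.map_eq_zero_iff] at h3
  exact congrArg Subtype.val h3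
lemma eu_zero (X : Spc) : eu (Bun.zero X) = 1 := by
  rw [eu, Lam_of_kl_sum (∅ : Finset Unit) (fun _ => 0) (by rw [kl_zero, Finset.sum_empty]),
    Finset.prod_empty, Polynomial.eval_one]

/-- Task V7. Near `z` choose `r` constant covectors that are a basis of `(E z)^∨`, `y = a s`;
`IsAlg.exists_retr` gives `ρ s = H y` on `W`; `Jac.zl_at`. -/
theorem zl_reg {W Z : Spc} {n r : ℕ} (hW : W.Sm n) {E : Bun W} (hE : E.Rk r) {s : E.ι → R}
    (hs : E.IsSec s) (hZ : Z.Sub W) (hz : ∀ x ∈ W.pts, x ∈ Z.pts ↔ ∀ i, eval x (s i) = 0)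
    (ht : ∀ z ∈ Z.pts,
      finrank ℂ (W.Tan z ⊓ LinearMap.ker (dS z s) : Submodule ℂ Pt) + r ≤ n) :
    Reg W Z s ∧ Z.Sm (n - r) ∧ ∀ z ∈ Z.pts, r ≤ n ∧ (W.Tan z).map (dS z s) = E.L z := by
  have hsI : ∀ i, s i ∈ Z.I := fun i x hx => (hz x (hZ.2 hx)).1 hx i
  have hd : ∀ z ∈ Z.pts, ∀ ξ ∈ W.Tan z, dS z s ξ ∈ E.L z := fun z hzz ξ hξ =>
    E.dAt_mem hs (hZ.2 hzz) (fun i => hsI i z hzz) hξ
  have key : ∀ z ∈ Z.pts, finrank ℂ (W.Tan z ⊓ LinearMap.ker (dS z s) : Submodule ℂ Pt) + r = n ∧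
      Z.ldim z = finrank ℂ (Z.Tan z) ∧ Z.Tan z = W.Tan z ⊓ LinearMap.ker (dS z s) := by
    intro z hzz
    have hzW := hZ.2 hzz
    obtain ⟨a, ha⟩ := exists_inj_mat (E.L z) (hE z hzW)
    obtain ⟨ρ, H, hρ, hH⟩ := E.alg.exists_retr (a.map (C : ℂ → R)) hzW (by rwa [B0.mev_C])
    let y : Fin r → R := fun j => ∑ i, C (a j i) * s i
    have hy : ∀ ξ j, dAt z ξ (y j) = a.mulVecLin (dS z s ξ) j := fun ξ j => by
      simp only [y, Jac.dAt_sum, Jac.dAt_C_mul, Matrix.mulVecLin_apply, Matrix.mulVec, dotProduct,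
        dS_apply]
    have hT : ∀ ξ ∈ W.Tan z, (∀ j, dAt z ξ (y j) = 0) →
        ξ ∈ W.Tan z ⊓ LinearMap.ker (dS z s) := by
      intro ξ hξ h0
      refine ⟨hξ, ?_⟩
      have h1 : a.mulVecLin (dS z s ξ) = 0 := by
        funext j
        rw [← hy, h0, Pi.zero_apply]
      have h2 : dS z s ξ ∈ E.L z ⊓ LinearMap.ker a.mulVecLin := ⟨hd z hzz ξ hξ, h1⟩
      rw [ha] at h2
      exact h2
    obtain ⟨h1, h2, h3, -⟩ := Jac.zl_at hZ hzz (hW z hzW).2.ge y
      (fun j => Ideal.sum_mem _ fun i _ => Ideal.mul_mem_left _ _ (hsI i)) hρ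
      (fun x hx hx0 h0 => by
        have h4 := (hH x hx).2 _ (hs x hx)
        have h5 : mev x (a.map (C : ℂ → R)) (fun i => eval x (s i)) = 0 := by
          funext j
          have h6 := h0 j
          simp only [y, map_sum, map_mul] at h6
          exact h6
        rw [h5, map_zero] at h4
        exact (hz x hx).2 fun i => (mul_eq_zero.1 (congrFun h4 i).symm).resolve_left hx0)
      _ hT (ht z hzz)
    have h4 : Z.Tan z = W.Tan z ⊓ LinearMap.ker (dS z s) := by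
      ext ξ
      rw [h3]
      refine ⟨fun h => hT ξ h.1 h.2, fun h => ⟨h.1, fun j => ?_⟩⟩
      rw [hy, show dS z s ξ = 0 from h.2, map_zero, Pi.zero_apply]
    exact ⟨h4 ▸ h1, h2, h4⟩
  refine ⟨⟨hZ, hz, fun z hzz => hW.smAt (hZ.2 hzz), fun z hzz => ?_⟩, fun z hzz => ?_,
    fun z hzz => ?_⟩ <;> obtain ⟨h1, h2, h3⟩ := key z hzz
  · rw [h2, h3]
  · have h4 : finrank ℂ (Z.Tan z) = n - r := by rw [h3]; omega
    exact ⟨h4, by rw [h2, h4]⟩
  · refine ⟨by omega, Submodule.eq_of_le_of_finrank_eq ?_ ?_⟩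
    · rintro _ ⟨ξ, hξ, rfl⟩
      exact hd z hzz ξ hξ
    · have h4 := finrank_inf_ker_add (W.Tan z) (dS z s)
      rw [(hW z (hZ.2 hzz)).1] at h4
      rw [hE z (hZ.2 hzz)]
      omega
/-- if the differential is onto, the normal bundle is the bundle itself -/
lemma kl_nor_eq {W Z : Spc} {E : Bun W} {s : E.ι → R} (hh : ∀ i, Hmg (E.deg i) (s i))
    (hR : Reg W Z s) (h : ∀ z ∈ Z.pts, (W.Tan z).map (dS z s) = E.L z) :
    (hR.nor (E := E.pull hR.sub.proj) hh).kl = (E.pull hR.sub.proj).kl :=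
  kl_re _ fun z hz => by
    change _ = E.L (restr W.B z)
    rw [W.restr_eq (hR.sub.2 hz)]
    exact h z hz

/-- **zero locus lemma** -/
theorem zl {W Z : Spc} {n r : ℕ} (hW : W.Sm n) {E : Bun W} (hE : E.Rk r) {s : E.ι → R}
    (hs : E.IsSec s) (hh : ∀ i, Hmg (E.deg i) (s i)) (hZ : Z.Sub W)
    (hz : ∀ x ∈ W.pts, x ∈ Z.pts ↔ ∀ i, eval x (s i) = 0)
    (ht : ∀ z ∈ Z.pts,
      finrank ℂ (W.Tan z ⊓ LinearMap.ker (dS z s) : Submodule ℂ Pt) + r ≤ n) :
    Z.Sm (n - r) ∧ (∀ z ∈ Z.pts, r ≤ n ∧ Z.Tan z = W.Tan z ⊓ LinearMap.ker (dS z s) ∧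
      (W.Tan z).map (dS z s) = E.L z) ∧ push Z W (one Z) = eu E • one W := by
  obtain ⟨hR, h1, h2⟩ := zl_reg hW hE hs hZ hz ht
  refine ⟨h1, fun z hzz => ⟨(h2 z hzz).1, (hR.eqs hzz).2.1, (h2 z hzz).2⟩, ?_⟩
  rw [push_eq_incl hZ, ← excess hE hs hh hR (C := Bun.zero Z)
    (by rw [kl_zero, add_zero, kl_nor_eq hh hR fun z hzz => (h2 z hzz).2]), eu_zero, one_smul]
/-- the tangent bundle of a zero locus -/
theorem zl_tan {W Z : Spc} {n r : ℕ} (hW : W.Sm n) {E : Bun W} (hE : E.Rk r) {s : E.ι → R}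
    (hs : E.IsSec s) (hh : ∀ i, Hmg (E.deg i) (s i)) (hZ : Z.Sub W)
    (hz : ∀ x ∈ W.pts, x ∈ Z.pts ↔ ∀ i, eval x (s i) = 0)
    (ht : ∀ z ∈ Z.pts,
      finrank ℂ (W.Tan z ⊓ LinearMap.ker (dS z s) : Submodule ℂ Pt) + r ≤ n)
    {V : Finset Var} (hV : W.Vars V) {m : ℕ} (hm : Z.Sm m) :
    ((Bun.tan W V hV n hW).pull hZ.proj).kl =
      (Bun.tan Z V (vars_sub hV hZ) m hm).kl + (E.pull hZ.proj).kl := by
  obtain ⟨hR, -, h2⟩ := zl_reg hW hE hs hZ hz ht
  have h3 := hR.kl_nor (E := E.pull hZ.proj) hh hV (Spc.Sub.refl Z) hR.sm fun z hzz => hm.smAt hzz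
  rw [kl_tanOn hZ hV hW, kl_tanOn_of_eq _ _ hm _ fun _ _ => rfl] at h3
  rw [h3, ← kl_nor_eq hh hR fun z hzz => (h2 z hzz).2]
  exact congrArg _ ((K.pull_kl _ _).symm.trans (K.pull_self _))

/-- localization, one weight vector; `N` is the normal bundle of `W.fix w` in `W`, `C` the excess
bundle of `Q.fix w` in `W.fix w` -/
theorem loc_w' {W Q : Spc} {n r : ℕ} (hW : W.Sm n) {V : Finset Var} (hV : W.Vars V) {E : Bun Q}
    (hE : E.Rk r) {s : E.ι → R} (h : Cone W Q E s) (w : ℕ → ℤ)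
    (ht : ∀ z ∈ (Q.fix w).pts, (finrank ℂ (W.Tan z ⊓ fixS w ⊓ LinearMap.ker (dS z s) :
      Submodule ℂ Pt) : ℕ∞) ≤ (Q.fix w).ldim z) :
    ∃ (e : Op (Q.fix w)) (N C : Bun (Q.fix w)), (∀ i, nwt Q.B w (N.deg i) ≠ 0) ∧
      eu N * e = gw (Q.fix w) V w ∧
      gw Q V w • psi h hE (one W) = incl (Q.fix w) Q ((e * eu C) • one (Q.fix w)) ∧
      ∀ (F : Spc) (hF : F.Sub (Q.fix w)) (m : ℕ) (hm : F.Sm m),
        (∀ z ∈ F.pts, finrank ℂ (W.Tan z ⊓ fixS w ⊓ LinearMap.ker (dS z s) : Submodule ℂ Pt) ≤ m) →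
        ((Bun.tan W V hV n hW).pull ((hF.trans (fix_sub Q w)).trans h.sub).proj).kl +
            (C.pull hF.proj).kl = (E.pull (hF.trans (fix_sub Q w)).proj).kl +
          (Bun.tan F V (vars_sub hV ((hF.trans (fix_sub Q w)).trans h.sub)) m hm).kl +
            (N.pull hF.proj).kl := by
  have hW' := fix_sub W w
  have hQ' := fix_sub Q w
  have hQW : (Q.fix w).Sub (W.fix w) :=
    ⟨h.sub.1, fun x hx => mem_fix.2 ⟨h.sub.2 (mem_fix.1 hx).1, (mem_fix.1 hx).2⟩⟩
  have hR : Reg W (W.fix w) (ymov V w) := reg_fix hV w fun z hz => hW.smAt (hW'.2 hz)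
  have hh : ∀ i, Hmg ((amov W V hV w).deg i) (ymov V w i) := fun v => gam_X v.1
  obtain ⟨C₁, hC₁⟩ := hR.exists_excess (E := (amov W V hV w).pull hW'.proj) hh
    fun _ _ _ _ => trivial
  have h1 := excess (E := amov W V hV w) (rk_triv _ _) (fun _ _ => trivial) hh hR hC₁
  have h' : Cone (W.fix w) (Q.fix w) (E.pull hQ'.proj) s :=
    cone_pull h hW' hQ' hQW fun x hx hx' => mem_fix.2 ⟨hx', (mem_fix.1 hx).2⟩
  have hTw : ∀ z ∈ (W.fix w).pts, (W.fix w).Tan z = W.Tan z ⊓ fixS w := fun z hz => by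
    rw [(hR.eqs hz).2.1, tan_inf_ker hV]
  have hR' : Reg (W.fix w) (Q.fix w) s := ⟨hQW, h'.zero, fun z hz => (hR.eqs (hQW.2 hz)).1,
    fun z hz => by rw [hTw z (hQW.2 hz)]; exact ht z hz⟩
  obtain ⟨C₂, hC₂⟩ := hR'.exists_excess (E := E.pull hQ'.proj) h'.hmg
    fun z hz ξ hξ => h'.toSyz.dS_mem hz (fun i => hR'.mem_I i z hz) hξ
  refine ⟨Op.pull hQW.proj (eu C₁), (hR.nor (E := (amov W V hV w).pull hW'.proj) hh).pull hQW.proj,
    C₂, fun v => ?_, ?_, ?_, fun F hF m hm hd => ?_⟩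
  · obtain ⟨h2, h3⟩ := mem_mov.1 v.2
    change nwt Q.B w (vdeg v.1) ≠ 0
    rw [nwt_vdeg w ((vars_sub hV h.sub).1 _ h2)]
    exact sub_ne_zero.2 h3
  · rw [eu_pull, ← map_mul, ← eu_add hC₁, eu_pull, eu_amov, pull_gw _ hV,
      pull_gw _ (vars_sub hV hW')]
  · rw [← pull_gw h.sub.proj hV, ← psi_smul, ← eu_amov hV, ← h1, psi_incl h hE hW' hQ' h',
      psi_smul, psi_one h' _ hR' hC₂, mul_smul]
  · have hFW := hF.trans hQW
    have e1 := hR.kl_nor (E := (amov W V hV w).pull hW'.proj) hh hV hFW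
      (fun z hz => hW.smAt (hW'.2 (hFW.2 hz))) fun z hz => (hR.eqs (hFW.2 hz)).1
    have e2 := hR'.kl_nor (E := E.pull hQ'.proj) h'.hmg (vars_sub hV hW') hF
      (fun z hz => (hR.eqs (hFW.2 hz)).1) fun z hz => (hR'.eqs (hF.2 hz)).1
    rw [kl_tanOn_of_eq hF _ hm _ fun z hz => Submodule.eq_of_le_of_finrank_le
      (TanI_anti hF.I_le z) (by
        rw [(hR'.eqs (hF.2 hz)).2.1, hTw z (hFW.2 hz), (hm z hz).1]; exact hd z hz)] at e2
    rw [kl_tanOn _ hV hW, e2] at e1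
    have e4 := congrArg (K.pull hF.proj) hC₂
    rw [map_add, ← K.pull_kl hQ'.proj, K.pull_pull, K.pull_kl, K.pull_kl, K.pull_kl] at e4
    rw [e1, e4, ← K.pull_kl hF.proj (Bun.pull _ hQW.proj), ← K.pull_kl hQW.proj, K.pull_pull,
      K.pull_kl]
    ring
/-- the Euler class identity on a space over the fixed locus -/
lemma eu_mul_pull {X Y : Spc} (p : Proj Y X) {e g : Op X} {N C : Bun X} (h : eu N * e = g)
    {M₁ M₂ : Bun Y} (hM : K.pull p N.kl + M₂.kl = K.pull p C.kl + M₁.kl) :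
    eu M₁ * Op.pull p (e * eu C) = Op.pull p g * eu M₂ := by
  rw [K.pull_kl, K.pull_kl] at hM
  have h1 := eu_add_add hM
  rw [eu_pull, eu_pull] at h1
  rw [← h, map_mul, map_mul]
  linear_combination -Op.pull p e * h1
/-- the fixed directions only depend on the weights of the blocks -/
lemma tan_inf_fixS {W : Spc} {w w' : ℕ → ℤ} (h : ∀ b ∈ W.B, w b = w' b) (z : Pt) :
    W.Tan z ⊓ fixS w = W.Tan z ⊓ fixS w' := by
  have key : ∀ {w w' : ℕ → ℤ}, (∀ b ∈ W.B, w b = w' b) → W.Tan z ⊓ fixS w ≤ W.Tan z ⊓ fixS w' := by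
    rintro w w' h ξ ⟨h1, h2⟩
    refine ⟨h1, mem_fixS.2 fun v hv => ?_⟩
    by_cases hb : v.1 ∈ W.B
    · exact mem_fixS.1 h2 v (by rwa [h _ hb])
    · rw [← dAt_X z ξ v]
      refine h1 _ fun x hx => ?_
      by_contra h0
      exact hb (W.mem_B hx (by rwa [eval_X] at h0))
  exact le_antisymm (key h) (key fun b hb => (h b hb).symm)
/-- the weights of the blocks are determined by a point -/
lemma wt_eq_of_mem {F : Spc} {w w' : ℕ → ℤ} (hT : F.TTriv w') {z : Pt} (hz : z ∈ F.pts)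
    (hw : ∀ v : Var, z v ≠ 0 → v.2.2 = w v.1) : ∀ b ∈ F.B, w b = w' b := fun b hb => by
  obtain ⟨v, rfl, hv⟩ := F.rel z hz b hb
  rw [← hw v hv, hT z hz v hv]

/-- **virtual localization**, with the moving normal bundles `N j` and the excess bundles `C j` of
the fixed pieces `F j`: `T^vir = TW - E` restricts on `F j` to `TF + N j - C j`, and
`β j = u · eu (C j) / eu (N j)`, also after pull-back. -/
theorem loc' {W Q : Spc} {n r : ℕ} (hW : W.Sm n) {V : Finset Var} (hV : W.Vars V) {E : Bun Q}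
    (hE : E.Rk r) {s : E.ι → R} (h : Cone W Q E s) {J : Type} [Fintype J] (F : J → Spc)
    (w : J → ℕ → ℤ) (m : J → ℕ) (hF : ∀ j, (F j).Sub Q) (hT : ∀ j, (F j).TTriv (w j))
    (hd : ∀ i j, i ≠ j → Disjoint (F i).pts (F j).pts)
    (hc : ∀ x ∈ Q.pts, ∀ w' : ℕ → ℤ, (∀ v : Var, x v ≠ 0 → v.2.2 = w' v.1) → ∃ j, x ∈ (F j).pts)
    (hm : ∀ j, (F j).Sm (m j))
    (ht : ∀ j, ∀ z ∈ (F j).pts,
      finrank ℂ (W.Tan z ⊓ fixS (w j) ⊓ LinearMap.ker (dS z s) : Submodule ℂ Pt) ≤ m j) :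
    ∃ (vir : G Q) (u : LaurentPolynomial ℤ) (β : ∀ j, Op (F j)) (N C : ∀ j, Bun (F j)), u ∈ Mov ∧
      tHom Q u • vir = ∑ j, push (F j) Q (β j • one (F j)) ∧
      (∀ j i, nwt (F j).B (w j) ((N j).deg i) ≠ 0) ∧
      (∀ j, ((Bun.tan W V hV n hW).pull ((hF j).trans h.sub).proj).kl + (C j).kl =
        (E.pull (hF j).proj).kl +
          (Bun.tan (F j) V (vars_sub hV ((hF j).trans h.sub)) (m j) (hm j)).kl + (N j).kl) ∧
      ∀ j (Y : Spc) (p : Proj Y (F j)) (M₁ M₂ : Bun Y),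
        K.pull p (N j).kl + M₂.kl = K.pull p (C j).kl + M₁.kl →
        eu M₁ * Op.pull p (β j) = tHom Y u * eu M₂ := by
  classical
  obtain ⟨S, u, c, hu, -, hp⟩ := exists_part (vars_sub hV h.sub)
  have h1 : ∀ j w', ∀ z ∈ (F j).pts, z ∈ (Q.fix w').pts → (F j).Sub (Q.fix w') ∧
      finrank ℂ (W.Tan z ⊓ fixS w' ⊓ LinearMap.ker (dS z s) : Submodule ℂ Pt) ≤ m j := by
    intro j w' z hz hz'
    have h2 := wt_eq_of_mem (hT j) hz (mem_fix.1 hz').2
    refine ⟨⟨(hF j).1, fun x hx => mem_fix.2 ⟨(hF j).2 hx, fun v hv => ?_⟩⟩, ?_⟩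
    · rw [h2 _ ((F j).mem_B hx hv), hT j x hx v hv]
    · rw [tan_inf_fixS (((hF j).trans h.sub).1 ▸ h2)]
      exact ht j z hz
  choose e N C hN he hb hK using fun w' => loc_w' hW hV hE h w' fun z hz => by
    obtain ⟨j, hj⟩ := hc z (mem_fix.1 hz).1 w' (mem_fix.1 hz).2
    obtain ⟨h2, h3⟩ := h1 j w' z hj hz
    refine le_trans ?_ (Spc.ldim_mono h2 hj)
    rw [(hm j z hj).2]
    exact_mod_cast h3
  have hF' : ∀ j, (F j).Sub (Q.fix (w j)) := fun j => (hT j).sub_fix (hF j)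
  have hK' := fun j w' (hj : (F j).Sub (Q.fix w')) =>
    hK w' (F j) hj (m j) (hm j) fun z hz => (h1 j w' z hz (hj.2 hz)).2
  refine ⟨psi h hE (one W), u, fun j => ∑ w' ∈ S, if hj : (F j).Sub (Q.fix w') then
    Op.pull (hF j).proj (c w') * Op.pull hj.proj (e w' * eu (C w')) else 0,
    fun j => (N (w j)).pull (hF' j).proj, fun j => (C (w j)).pull (hF' j).proj, hu, ?_,
    fun j i => (hF j).1 ▸ hN (w j) i, fun j => hK' j _ (hF' j), fun j Y p M₁ M₂ hM => ?_⟩
  · simp only [Finset.sum_smul, map_sum]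
    rw [Finset.sum_comm, hp, Finset.sum_smul]
    refine Finset.sum_congr rfl fun w' _ => ?_
    rw [mul_smul, hb, one_disjoint (fun j : {j // (F j).Sub (Q.fix w')} => F j.1) (fun j => j.2)
      (fun x hx => by
        obtain ⟨j, hj⟩ := hc x (mem_fix.1 hx).1 w' (mem_fix.1 hx).2
        exact ⟨⟨j, (h1 j w' x hj hx).1⟩, hj⟩) fun i j hij => hd _ _ fun e => hij (Subtype.ext e),
      Finset.smul_sum, map_sum, Finset.smul_sum,
      ← Finset.sum_subtype (Finset.univ.filter fun j => (F j).Sub (Q.fix w')) (by simp)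
        fun j => c w' • incl (Q.fix w') Q ((e w' * eu (C w')) • incl (F j) (Q.fix w') (one (F j))),
      Finset.sum_filter]
    refine Finset.sum_congr rfl fun j _ => ?_
    split_ifs with hj
    · rw [mul_smul (Op.pull _ (c w')), push_smul, push_eq_incl (hF j),
        ← incl_incl hj (fix_sub Q w'), ← push_eq_incl hj, push_smul]
    · rw [zero_smul, map_zero]
  · rw [← Op.pull_tHom p, ← Op.pull_tHom (hF j).proj, hp, map_sum, map_sum, map_sum, Finset.sum_mul,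
      Finset.mul_sum]
    refine Finset.sum_congr rfl fun w' _ => ?_
    rw [map_mul (Op.pull (hF j).proj), pull_gw _ (vars_sub hV h.sub)]
    split_ifs with hj
    · have h2 := congrArg (K.pull p) (hK' j w' hj)
      have h3 := congrArg (K.pull p) (hK' j _ (hF' j))
      simp only [map_add] at h2 h3
      rw [map_mul (Op.pull p), map_mul (Op.pull p) _ (gw _ _ _), Op.pull_pull p hj.proj,
        mul_left_comm, eu_mul_pull (p.trans hj.proj) (he w') (M₂ := M₂), ← Op.pull_pull p hj.proj,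
        pull_gw hj.proj (vars_sub hV ((fix_sub Q w').trans h.sub)), mul_assoc]
      rw [← K.pull_pull p hj.proj, ← K.pull_pull p hj.proj, K.pull_kl hj.proj, K.pull_kl hj.proj]
      linear_combination hM + h3 - h2
    · have h2 : ∃ b ∈ (F j).B, w' b ≠ w j b := by
        by_contra h0
        push Not at h0
        exact hj ⟨(hF j).1, fun x hx => mem_fix.2 ⟨(hF j).2 hx, fun v hv => by
          rw [h0 _ ((F j).mem_B hx hv), hT j x hx v hv]⟩⟩
      obtain ⟨b₀, hb₀, hne⟩ := h2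
      rw [gw_eq_zero (vars_sub hV ((hF j).trans h.sub)) (hT j) hb₀ hne, mul_zero, map_zero,
        mul_zero, zero_mul]

/-- **virtual localization**. `F j` are the fixed pieces; if `T^vir = TW - E` restricts on `F j` to
`TF + M₁ - M₂` then `a j = u · eu M₂ / eu M₁`. -/
theorem loc {W Q : Spc} {n r : ℕ} (hW : W.Sm n) {V : Finset Var} (hV : W.Vars V) {E : Bun Q}
    (hE : E.Rk r) {s : E.ι → R} (h : Cone W Q E s) {J : Type} [Fintype J] (F : J → Spc)
    (w : J → ℕ → ℤ) (m : J → ℕ) (hF : ∀ j, (F j).Sub Q) (hT : ∀ j, (F j).TTriv (w j))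
    (hd : ∀ i j, i ≠ j → Disjoint (F i).pts (F j).pts)
    (hc : ∀ x ∈ Q.pts, ∀ w' : ℕ → ℤ, (∀ v : Var, x v ≠ 0 → v.2.2 = w' v.1) → ∃ j, x ∈ (F j).pts)
    (hm : ∀ j, (F j).Sm (m j))
    (ht : ∀ j, ∀ z ∈ (F j).pts,
      finrank ℂ (W.Tan z ⊓ fixS (w j) ⊓ LinearMap.ker (dS z s) : Submodule ℂ Pt) ≤ m j) :
    ∃ (vir : G Q) (u : LaurentPolynomial ℤ) (a : ∀ j, G (F j)), u ∈ Mov ∧
      tHom Q u • vir = ∑ j, push (F j) Q (a j) ∧ ∀ j (M₁ M₂ : Bun (F j)),
        ((Bun.tan W V hV n hW).pull ((hF j).trans h.sub).proj).kl + M₂.kl =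
          (E.pull (hF j).proj).kl +
            (Bun.tan (F j) V (vars_sub hV ((hF j).trans h.sub)) (m j) (hm j)).kl + M₁.kl →
        eu M₁ • a j = (tHom (F j) u * eu M₂) • one (F j) := by
  obtain ⟨vir, u, β, N, C, hu, h1, -, h2, h3⟩ := loc' hW hV hE h F w m hF hT hd hc hm ht
  refine ⟨vir, u, fun j => β j • one (F j), hu, h1, fun j M₁ M₂ hM => ?_⟩
  rw [smul_smul, ← h3 j (F j) (Proj.refl _) M₁ M₂, Op.pull_self]
  rw [K.pull_self, K.pull_self]
  linear_combination hM - h2 j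

end Crest.Agent.N265.V
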